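import Vale.Agent.P151.Growth.Boost
import Vale.Agent.P151.Growth.Critical

/-!
Averaging over almost invariant sets of an amenable quasi-transitive graph: an invariant
nonnegative quantity is bounded by its averages, and a set that is small compared with every ball
of radius `r` has a boundary of at least its size over `r`.
-/

open Finset

namespace Vale.Agent.P151.Slow

open Vale.Agent.P165 Vale.Agent.P151.Growth

variable {W : Type*} [DecidableEq W] {G : SimpleGraph W} [G.LocallyFinite]

/-- An invariant nonnegative function is bounded by its averages over sets with small boundary. -/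
theorem average_bound (hG : G.Connected) (hQT : QuasiTransitive G) (hA : ¬ Nonamenable G) :
    ∃ C : ℝ, 0 ≤ C ∧ ∀ (m : ℕ) (f : W → ℝ) (c : ℝ), (∀ x, 0 ≤ f x) →
      (∀ (φ : G ≃g G) (x : W), f (φ x) = f x) →
      (∀ core Λ : Finset W, core ⊆ Λ → (∀ y ∈ core, ball G y m ⊆ Λ) →
        ∑ y ∈ core, f y ≤ c * Λ.card) →
      ∀ x, f x ≤ C * c := by
  classical
  obtain ⟨K, hK⟩ := exists_near hG hQT
  obtain ⟨D, -, hball⟩ := exists_ball_bound hQT
  refine ⟨2 * ((D : ℝ) + 1) ^ K, by positivity, fun m f c hf hinv hsum x => ?_⟩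
  obtain ⟨V, hV, hL⟩ := exists_folner hA hball (K + m)
  set Λ := V.biUnion fun v => ball G v (K + m)
  set core := V.biUnion fun v => ball G v K
  choose φ hφ using fun v => hK v x
  set Y := V.image fun v => φ v x
  have hsub : core ⊆ Λ := fun z hz => by
    obtain ⟨v, hv, hz⟩ := mem_biUnion.1 hz
    exact mem_biUnion.2 ⟨v, hv, ball_mono v (Nat.le_add_right K m) hz⟩
  have hnear : ∀ y ∈ core, ball G y m ⊆ Λ := fun y hy z hz => by
    obtain ⟨v, hv, hy⟩ := mem_biUnion.1 hy
    exact mem_biUnion.2 ⟨v, hv, (ball_add v K m z).2 ⟨y, hy, hz⟩⟩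
  have hY : (Y.card : ℝ) * f x ≤ c * Λ.card := by
    refine le_trans ?_ (hsum core Λ hsub hnear)
    calc (Y.card : ℝ) * f x = ∑ y ∈ Y, f y := by
          rw [← nsmul_eq_mul, ← sum_const]
          refine sum_congr rfl fun y hy => ?_
          obtain ⟨v, -, rfl⟩ := mem_image.1 hy
          rw [hinv]
      _ ≤ _ := sum_le_sum_of_subset_of_nonneg (fun y hy => by
          obtain ⟨v, hv, rfl⟩ := mem_image.1 hy
          exact mem_biUnion.2 ⟨v, hv, hφ v⟩) fun y _ _ => hf y
  have hcard : (Λ.card : ℝ) ≤ 2 * ((D : ℝ) + 1) ^ K * Y.card := by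
    have h : V.card ≤ (D + 1) ^ K * Y.card := by
      refine card_le_mul_card_image _ _ fun y' _ => ?_
      refine (card_le_card fun v hv => ?_).trans (hball y' K)
      obtain ⟨-, rfl⟩ := mem_filter.1 hv
      exact ball_symm (hφ v)
    have h' : (V.card : ℝ) ≤ ((D : ℝ) + 1) ^ K * Y.card := by exact_mod_cast h
    have : (Λ.card : ℝ) ≤ 2 * V.card := by exact_mod_cast hL
    linarith
  have hY0 : (0 : ℝ) < Y.card := Nat.cast_pos.2 (card_pos.2 (hV.image _))
  have hc : 0 ≤ c := by
    obtain ⟨v, hv⟩ := hV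
    have h0 : 0 < (Λ.card : ℝ) :=
      Nat.cast_pos.2 (card_pos.2 ⟨v, mem_biUnion.2 ⟨v, hv, self_mem_ball v _⟩⟩)
    exact nonneg_of_mul_nonneg_left ((mul_nonneg hY0.le (hf x)).trans hY) h0
  refine le_of_mul_le_mul_left ?_ hY0
  calc (Y.card : ℝ) * f x ≤ c * Λ.card := hY
    _ ≤ c * (2 * ((D : ℝ) + 1) ^ K * Y.card) := mul_le_mul_of_nonneg_left hcard hc
    _ = _ := by ring

/-- The vertices of the ball of radius `n` about `x` at distance at most one from `y`. -/
noncomputable def down (G : SimpleGraph W) [G.LocallyFinite] (x : W) (n : ℕ) (y : W) : Finset W :=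
  (insert y (G.neighborFinset y)).filter fun z => z ∈ ball G x n

/-- Expected visits of the lazy random descent from `y` to `x`. -/
noncomputable def descent (G : SimpleGraph W) [G.LocallyFinite] (x : W) : ℕ → W → W → ℝ
  | 0, y, w => if y = w then 1 else 0
  | n + 1, y, w => (if y = w then 1 else 0) +
      (∑ z ∈ down G x n y, descent G x n z w) / (down G x n y).card

lemma descent_nonneg (x : W) : ∀ n (y w : W), 0 ≤ descent G x n y w
  | 0, y, w => by simp only [descent]; split <;> norm_num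
  | n + 1, y, w => by
    simp only [descent]
    refine add_nonneg (by split <;> norm_num) ?_
    exact div_nonneg (sum_nonneg fun z _ => descent_nonneg x n z w) (Nat.cast_nonneg _)

lemma descent_total (x : W) (S : Finset W) : ∀ n (y : W),
    ∑ w ∈ S, descent G x n y w ≤ (n : ℝ) + 1
  | 0, y => by
    simp only [descent, sum_ite_eq]
    split <;> norm_num
  | n + 1, y => by
    simp only [descent, sum_add_distrib, sum_ite_eq, ← sum_div]
    rw [Nat.cast_add, Nat.cast_one, add_comm ((n : ℝ) + 1)]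
    refine add_le_add (by split <;> norm_num) (div_le_of_le_mul₀ (by positivity) (by positivity) ?_)
    rw [sum_comm]
    exact (sum_le_card_nsmul _ _ _ fun z _ => descent_total x S n z).trans_eq
      (by rw [nsmul_eq_mul, mul_comm])

lemma descent_support (x : W) : ∀ n (y w : W), y ∈ ball G x n → descent G x n y w ≠ 0 →
    w ∈ ball G x n
  | 0, y, w, hy, h => by
    simp only [descent, ne_eq, ite_eq_right_iff, one_ne_zero, imp_false, not_not] at h
    exact h ▸ hy
  | n + 1, y, w, hy, h => by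
    by_cases hyw : y = w
    · exact hyw ▸ hy
    rw [descent, if_neg hyw, zero_add] at h
    obtain ⟨z, hz, hne⟩ := exists_ne_zero_of_sum_ne_zero (div_ne_zero_iff.1 h).1
    exact ball_mono x (Nat.le_succ n)
      (descent_support x n z w (mem_filter.1 hz).2 hne)

lemma down_nonempty {x y : W} {n : ℕ} (hy : y ∈ ball G x (n + 1)) :
    (down G x n y).Nonempty := by
  rcases mem_ball_succ.1 hy with h | ⟨w, hw, hwy⟩
  · exact ⟨y, mem_filter.2 ⟨mem_insert_self _ _, h⟩⟩
  · exact ⟨w, mem_filter.2 ⟨mem_insert_of_mem ((G.mem_neighborFinset _ _).2 hwy.symm), hw⟩⟩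

/-- A descent from outside a set to a point of the set visits its outer boundary. -/
lemma descent_boundary {A P : Finset W} (hP : ∀ u ∈ A, ∀ w, G.Adj u w → w ∉ A → w ∈ P) {x : W}
    (hx : x ∈ A) : ∀ n y, y ∈ ball G x n → y ∉ A → 1 ≤ ∑ w ∈ P, descent G x n y w
  | 0, y, hy, hyA => by
    simp only [ball, mem_singleton] at hy
    exact absurd (hy ▸ hx) hyA
  | n + 1, y, hy, hyA => by
    simp only [descent, sum_add_distrib, sum_ite_eq, ← sum_div]
    by_cases hyP : y ∈ P
    · rw [if_pos hyP]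
      exact le_add_of_nonneg_right (div_nonneg
        (sum_nonneg fun w _ => sum_nonneg fun z _ => descent_nonneg x n z w) (Nat.cast_nonneg _))
    rw [if_neg hyP, zero_add, one_le_div (Nat.cast_pos.2 (card_pos.2 (down_nonempty hy))), sum_comm]
    refine le_of_eq_of_le ?_ (card_nsmul_le_sum _ _ 1 fun z hz => ?_)
    · rw [nsmul_eq_mul, mul_one]
    obtain ⟨hz, hzb⟩ := mem_filter.1 hz
    refine descent_boundary hP hx n z hzb fun hzA => ?_
    rcases mem_insert.1 hz with rfl | hz
    · exact hyA hzA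
    · exact hyP (hP z hzA y ((G.mem_neighborFinset _ _).1 hz).symm hyA)

lemma ball_iso (φ : G ≃g G) (x : W) (n : ℕ) :
    ball G (φ x) n = (ball G x n).map φ.toEquiv.toEmbedding := by
  ext z
  rw [Finset.mem_map_equiv]
  change z ∈ ball G (φ x) n ↔ φ.symm z ∈ ball G x n
  refine ⟨fun h => ?_, fun h => ?_⟩
  · simpa using ball_map φ.symm _ n z h
  · simpa using ball_map φ x n _ h

lemma down_iso (φ : G ≃g G) (x : W) (n : ℕ) (y : W) :
    down G (φ x) n (φ y) = (down G x n y).map φ.toEquiv.toEmbedding := by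
  ext z
  obtain ⟨z, rfl⟩ := φ.surjective z
  have e : φ.toEquiv.symm (φ z) = z := φ.toEquiv.symm_apply_apply z
  rw [Finset.mem_map_equiv, e]
  simp only [down, mem_filter, mem_insert, G.mem_neighborFinset, φ.injective.eq_iff,
    φ.map_adj_iff, ball_iso, Finset.mem_map_equiv, e]

lemma descent_iso (φ : G ≃g G) (x : W) : ∀ n (y w : W),
    descent G (φ x) n (φ y) (φ w) = descent G x n y w
  | 0, y, w => by simp [descent]
  | n + 1, y, w => by
    simp only [descent, down_iso, sum_map, card_map, φ.injective.eq_iff, Equiv.coe_toEmbedding,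
      RelIso.coe_fn_toEquiv, descent_iso φ x n]

/-- The load put on `w` by the descents towards `x`. -/
noncomputable def loadFrom (G : SimpleGraph W) [G.LocallyFinite] (r : ℕ) (x w : W) : ℝ :=
  (∑ y ∈ ball G x r, descent G x r y w) / (ball G x r).card

lemma loadFrom_nonneg (r : ℕ) (x w : W) : 0 ≤ loadFrom G r x w :=
  div_nonneg (sum_nonneg fun y _ => descent_nonneg x r y w) (Nat.cast_nonneg _)

/-- A set that is small compared with all balls of radius `r` has a large boundary. -/
theorem iso_bound (hG : G.Connected) (hQT : QuasiTransitive G) (hA : ¬ Nonamenable G) :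
    ∃ C : ℝ, 0 ≤ C ∧ ∀ (A : Finset W) (r : ℕ), (∀ x, 2 * A.card ≤ (ball G x r).card) →
      (A.card : ℝ) ≤ C * ((r : ℝ) + 1) * ∑ u ∈ A, ((G.neighborFinset u \ A).card : ℝ) := by
  classical
  obtain ⟨C, hC, hav⟩ := average_bound hG hQT hA
  refine ⟨2 * C, by positivity, fun A r hball => ?_⟩
  set P := A.biUnion fun u => G.neighborFinset u \ A
  set load : W → ℝ := fun w => ∑ x ∈ ball G w r, loadFrom G r x w
  have hload : ∀ w, load w ≤ C * ((r : ℝ) + 1) := by
    refine hav r load _ (fun w => sum_nonneg fun x _ => loadFrom_nonneg r x w) (fun φ w => ?_)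
      fun core Λ _ hnear => ?_
    · simp only [load, loadFrom, ball_iso, sum_map, card_map, Equiv.coe_toEmbedding,
        RelIso.coe_fn_toEquiv, descent_iso]
    calc ∑ w ∈ core, load w ≤ ∑ w ∈ core, ∑ x ∈ Λ, loadFrom G r x w :=
          sum_le_sum fun w hw => sum_le_sum_of_subset_of_nonneg (hnear w hw)
            fun x _ _ => loadFrom_nonneg r x w
      _ = ∑ x ∈ Λ, ∑ w ∈ core, loadFrom G r x w := sum_comm
      _ ≤ ∑ _x ∈ Λ, ((r : ℝ) + 1) := by
          refine sum_le_sum fun x _ => ?_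
          simp only [loadFrom, ← sum_div]
          refine div_le_of_le_mul₀ (by positivity) (by positivity) ?_
          rw [sum_comm]
          exact (sum_le_card_nsmul _ _ _ fun y _ => descent_total x core r y).trans_eq
            (by rw [nsmul_eq_mul, mul_comm])
      _ = _ := by rw [sum_const, nsmul_eq_mul, mul_comm]
  have hlow : ∀ x ∈ A, (1 : ℝ) / 2 ≤ ∑ w ∈ P, loadFrom G r x w := by
    intro x hx
    simp only [loadFrom, ← sum_div]
    have hpos : (0 : ℝ) < (ball G x r).card :=
      Nat.cast_pos.2 (card_pos.2 ⟨x, self_mem_ball x r⟩)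
    rw [le_div_iff₀ hpos, sum_comm]
    have h1 : ((ball G x r \ A).card : ℝ) ≤ ∑ y ∈ ball G x r, ∑ w ∈ P, descent G x r y w := by
      refine le_trans ?_ (sum_le_sum_of_subset_of_nonneg (sdiff_subset (s := ball G x r) (t := A))
        fun y _ _ => sum_nonneg fun w _ => descent_nonneg x r y w)
      refine le_of_eq_of_le ?_ (card_nsmul_le_sum _ _ 1 fun y hy => ?_)
      · rw [nsmul_eq_mul, mul_one]
      obtain ⟨hy, hyA⟩ := mem_sdiff.1 hy
      exact descent_boundary (fun u hu w huw hwA => mem_biUnion.2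
        ⟨u, hu, mem_sdiff.2 ⟨(G.mem_neighborFinset _ _).2 huw, hwA⟩⟩) hx r y hy hyA
    have h2 : ((ball G x r).card : ℝ) ≤ 2 * (ball G x r \ A).card := by
      have h3 := le_card_sdiff A (ball G x r)
      have := hball x
      exact_mod_cast (by omega : (ball G x r).card ≤ 2 * (ball G x r \ A).card)
    linarith
  have hzero : ∀ w, ∀ x, x ∉ ball G w r → loadFrom G r x w = 0 := by
    intro w x hx
    rw [loadFrom, sum_eq_zero, zero_div]
    intro y hy
    by_contra hne
    exact hx (ball_symm (descent_support x r y w hy hne))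
  have hP : (P.card : ℝ) ≤ ∑ u ∈ A, ((G.neighborFinset u \ A).card : ℝ) := by
    exact_mod_cast card_biUnion_le
  calc (A.card : ℝ) = 2 * ∑ _x ∈ A, (1 : ℝ) / 2 := by rw [sum_const, nsmul_eq_mul]; ring
    _ ≤ 2 * ∑ x ∈ A, ∑ w ∈ P, loadFrom G r x w := by
        exact mul_le_mul_of_nonneg_left (sum_le_sum hlow) two_pos.le
    _ ≤ 2 * ∑ w ∈ P, load w := by
        rw [sum_comm]
        refine mul_le_mul_of_nonneg_left (sum_le_sum fun w _ => ?_) two_pos.le
        rw [← sum_filter_of_ne (s := A) (p := fun x => x ∈ ball G w r) fun x _ hne =>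
          by_contra fun hx => hne (hzero w x hx)]
        exact sum_le_sum_of_subset_of_nonneg (fun x hx => (mem_filter.1 hx).2)
          fun x _ _ => loadFrom_nonneg r x w
    _ ≤ 2 * ((P.card : ℝ) * (C * ((r : ℝ) + 1))) := by
        refine mul_le_mul_of_nonneg_left ?_ two_pos.le
        exact (sum_le_card_nsmul _ _ _ fun w _ => hload w).trans_eq (nsmul_eq_mul _ _)
    _ = 2 * C * ((r : ℝ) + 1) * P.card := by ring
    _ ≤ _ := mul_le_mul_of_nonneg_left hP (by positivity)

/-- Probabilities of events of a finite set are Lipschitz in the parameter. -/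
lemma pr_lipschitz {α : Type*} [DecidableEq α] {p q : ℝ} (hp0 : 0 ≤ p) (hp1 : p ≤ 1) (hq0 : 0 ≤ q)
    (hq1 : q ≤ 1) (U : Finset α) (Q : Finset α → Prop) :
    |Vale.Agent.P165.pr p U Q - Vale.Agent.P165.pr q U Q| ≤ (U.card : ℝ) * |p - q| := by
  classical
  induction U using Finset.induction_on generalizing Q with
  | empty => rw [P165.pr_empty, P165.pr_empty]; simp
  | insert a U ha ih =>
    rw [P165.pr_insert p ha, P165.pr_insert q ha, card_insert_of_notMem ha]
    set Q' := fun T => Q (insert a T)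
    have h1 := abs_le.1 (ih Q')
    have h0 := abs_le.1 (ih Q)
    have hb : |P165.pr p U Q' - P165.pr p U Q| ≤ 1 := abs_sub_le_iff.2
      ⟨by linarith [P165.pr_le_one hp0 hp1 U Q', P165.pr_nonneg hp0 hp1 U Q],
        by linarith [P165.pr_le_one hp0 hp1 U Q, P165.pr_nonneg hp0 hp1 U Q']⟩
    have e : (p * P165.pr p U Q' + (1 - p) * P165.pr p U Q) -
        (q * P165.pr q U Q' + (1 - q) * P165.pr q U Q) =
        (p - q) * (P165.pr p U Q' - P165.pr p U Q) + (q * (P165.pr p U Q' - P165.pr q U Q') +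
          (1 - q) * (P165.pr p U Q - P165.pr q U Q)) := by ring
    rw [e, Nat.cast_add, Nat.cast_one, add_mul, one_mul, add_comm ((U.card : ℝ) * |p - q|)]
    refine (abs_add_le _ _).trans (add_le_add ?_ (abs_le.2 ?_))
    · rw [abs_mul]; exact mul_le_of_le_one_right (abs_nonneg _) hb
    have hq1' : 0 ≤ 1 - q := sub_nonneg.2 hq1
    constructor
    · linarith [mul_le_mul_of_nonneg_left h1.1 hq0, mul_le_mul_of_nonneg_left h0.1 hq1']
    · linarith [mul_le_mul_of_nonneg_left h1.2 hq0, mul_le_mul_of_nonneg_left h0.2 hq1']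

/-- Stretched exponential growth at one vertex gives a doubling of the balls at every vertex. -/
lemma exists_growth (hG : G.Connected) (hQT : QuasiTransitive G) {o : W} {a c : ℝ} (ha : 0 < a)
    (hc : 0 < c)
    (h : ∀ᶠ r : ℕ in Filter.atTop, Real.exp (c * (r : ℝ) ^ a) ≤ ((ball G o r).card : ℝ)) :
    ∃ k C : ℕ, ∀ (z : W) (r : ℕ), 1 ≤ r → 2 ^ r ≤ (ball G z (C * r ^ k)).card := by
  obtain ⟨c', hc', hall⟩ := growth_all (H := G) ha hc h
  obtain ⟨K, hK⟩ := exists_near hG hQT
  obtain ⟨k, hk⟩ := exists_nat_ge (1 / a)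
  have hl2 : 0 < Real.log 2 := Real.log_pos one_lt_two
  obtain ⟨C₁, hC₁⟩ := exists_nat_ge ((Real.log 2 / c') ^ (1 / a))
  refine ⟨k, C₁ + K, fun z r hr => ?_⟩
  have hr1 : (1 : ℝ) ≤ r := by exact_mod_cast hr
  have hpow : (2 : ℝ) ^ r ≤ ((ball G o (C₁ * r ^ k)).card : ℝ) := by
    refine le_trans ?_ (hall _)
    have e : (2 : ℝ) ^ r = Real.exp (Real.log 2 * r) := by
      rw [mul_comm, Real.exp_nat_mul, Real.exp_log two_pos]
    rw [e]
    refine Real.exp_le_exp.2 ?_
    push_cast
    rw [Real.mul_rpow (Nat.cast_nonneg _) (by positivity), ← Real.rpow_natCast (r : ℝ) k,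
      ← Real.rpow_mul (Nat.cast_nonneg r), ← mul_assoc]
    have hC : Real.log 2 ≤ c' * (C₁ : ℝ) ^ a := by
      rw [← div_le_iff₀' hc']
      calc Real.log 2 / c' = ((Real.log 2 / c') ^ (1 / a)) ^ a := by
            rw [← Real.rpow_mul (by positivity), one_div_mul_cancel ha.ne', Real.rpow_one]
        _ ≤ _ := Real.rpow_le_rpow (by positivity) hC₁ ha.le
    refine mul_le_mul hC ?_ (Nat.cast_nonneg r) (by positivity)
    calc (r : ℝ) = (r : ℝ) ^ (1 : ℝ) := (Real.rpow_one _).symm
      _ ≤ _ := Real.rpow_le_rpow_of_exponent_le hr1 (by rwa [div_le_iff₀ ha] at hk)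
  obtain ⟨φ, hφ⟩ := hK z o
  have hsub : (ball G o (C₁ * r ^ k)).map φ.toEquiv.toEmbedding ⊆ ball G z ((C₁ + K) * r ^ k) := by
    rw [← ball_iso]
    intro y hy
    refine ball_mono z ?_ ((ball_add z K _ y).2 ⟨φ o, hφ, hy⟩)
    rw [add_mul, add_comm]
    exact Nat.add_le_add_left (Nat.le_mul_of_pos_right K (pow_pos hr k)) _
  have := card_le_card hsub
  rw [card_map] at this
  have h2 : (2 ^ r : ℕ) ≤ (ball G o (C₁ * r ^ k)).card := by exact_mod_cast hpow
  omega

end Vale.Agent.P151.Slow
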