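import Vale.Agent.P151.Slow.Cluster

/-!
Merging a chain of distinct clusters by opening the edges that link them, and recovering the chain
from the merged configuration: each opened edge is the only edge cutting off a piece of exactly the
prescribed number of vertices from a larger rest.
-/

open Finset

namespace Vale.Agent.P151.Slow

open Vale.Agent.P165 Vale.Agent.P151.Fin Vale.Agent.P151.Growth

variable {W : Type*} [DecidableEq W]

/-- Removing the edge `s(b, c)` cuts off, from the cluster of `a`, a side of `s` vertices containing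
`a`, the side of `c` being larger. -/
def Cut (T : Finset (Sym2 W)) (a : W) (s : ℕ) (b c : W) : Prop :=
  s(b, c) ∈ T ∧ c ∈ clf T a ∧ c ∉ clf (T.erase s(b, c)) a ∧
    sz (T.erase s(b, c)) a = s ∧ s < sz (T.erase s(b, c)) c

section Cut

variable {T : Finset (Sym2 W)} {a b c b' c' : W} {s : ℕ}

lemma Cut.near_mem (h : Cut T a s b c) : b ∈ clf (T.erase s(b, c)) a := by
  obtain ⟨-, hc, hc', -⟩ := h
  by_contra hb
  refine hc' ((clf_subset self_mem_clf fun y z hy hyz => ?_ :
    clf T a ⊆ clf (T.erase s(b, c)) a) hc)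
  by_cases e : s(y, z) = s(b, c)
  · rcases Sym2.eq_iff.1 e with ⟨rfl, rfl⟩ | ⟨rfl, rfl⟩
    · exact absurd hy hb
    · exact absurd hy hc'
  · exact clf_step hy (mem_erase.2 ⟨e, hyz⟩)

/-- Such a cut is unique. -/
theorem Cut.unique (h : Cut T a s b c) (h' : Cut T a s b' c') : b = b' ∧ c = c' := by
  have hb := h.near_mem
  have hb' := h'.near_mem
  obtain ⟨hf, -, hc, hA, hB⟩ := h
  obtain ⟨hf', -, hc', hA', hB'⟩ := h'
  set f := s(b, c) with hfdef
  set f' := s(b', c') with hf'def
  by_cases e : f = f'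
  · rcases Sym2.eq_iff.1 e with h | ⟨h1, h2⟩
    · exact h
    · rw [← e, ← h1] at hc'
      exact absurd hb hc'
  exfalso
  by_cases htouch : b' ∈ clf (T.erase f) a ∨ c' ∈ clf (T.erase f) a
  · -- the side of `c` avoids `f'`
    have hside : b' ∈ clf (T.erase f) a ∧ c' ∈ clf (T.erase f) a := by
      have hmem : s(b', c') ∈ T.erase f := mem_erase.2 ⟨Ne.symm e, hf'⟩
      rcases htouch with h | h
      · exact ⟨h, clf_step h hmem⟩
      · exact ⟨clf_step h (Sym2.eq_swap ▸ hmem), h⟩
    have hBsub : clf (T.erase f) c ⊆ clf (T.erase f') c := by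
      have hsub : clf (T.erase f) c ⊆ clf (T.erase f) c ∩ clf (T.erase f') c := by
        refine clf_subset (mem_inter.2 ⟨self_mem_clf, self_mem_clf⟩) fun y z hy₀ hyz => ?_
        obtain ⟨hy, hy'⟩ := mem_inter.1 hy₀
        refine mem_inter.2 ⟨clf_step hy hyz, clf_step hy' (mem_erase.2 ⟨fun hyz' => hc ?_,
          mem_of_mem_erase hyz⟩)⟩
        have hya : y ∈ clf (T.erase f) a := by
          rcases Sym2.eq_iff.1 hyz' with ⟨rfl, -⟩ | ⟨rfl, -⟩
          · exact hside.1
          · exact hside.2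
        rw [← clf_eq_of_mem hya, clf_eq_of_mem hy]
        exact self_mem_clf
      exact hsub.trans inter_subset_right
    have hmemf : s(b, c) ∈ T.erase f' := mem_erase.2 ⟨e, hf⟩
    by_cases hbA : b ∈ clf (T.erase f') a
    · have hcA := clf_step hbA hmemf
      have := card_le_card (hBsub.trans_eq (clf_eq_of_mem hcA))
      rw [sz] at hB hA'
      omega
    · have hsub : clf (T.erase f') a ⊆ clf (T.erase f') a ∩ clf (T.erase f) a := by
        refine clf_subset (mem_inter.2 ⟨self_mem_clf, self_mem_clf⟩) fun y z hy₀ hyz => ?_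
        obtain ⟨hy, hy'⟩ := mem_inter.1 hy₀
        refine mem_inter.2 ⟨clf_step hy hyz, clf_step hy' (mem_erase.2 ⟨fun hyz' => hbA ?_,
          mem_of_mem_erase hyz⟩)⟩
        rcases Sym2.eq_iff.1 hyz' with ⟨rfl, -⟩ | ⟨-, rfl⟩
        · exact hy
        · exact clf_step hy hyz
      have : clf (T.erase f') a ⊆ (clf (T.erase f) a).erase b := fun y hy =>
        mem_erase.2 ⟨fun e => hbA (e ▸ hy), (mem_inter.1 (hsub hy)).2⟩
      have := card_le_card this
      rw [card_erase_of_mem hb] at this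
      have := card_pos.2 ⟨b, hb⟩
      rw [sz] at hA hA'
      omega
  · -- the side of `a` avoids `f'`
    push Not at htouch
    have hsub : clf (T.erase f) a ⊆ clf (T.erase f) a ∩ clf (T.erase f') a := by
      refine clf_subset (mem_inter.2 ⟨self_mem_clf, self_mem_clf⟩) fun y z hy₀ hyz => ?_
      obtain ⟨hy, hy'⟩ := mem_inter.1 hy₀
      refine mem_inter.2 ⟨clf_step hy hyz, clf_step hy' (mem_erase.2 ⟨fun hyz' => ?_,
        mem_of_mem_erase hyz⟩)⟩
      rcases Sym2.eq_iff.1 hyz' with ⟨rfl, -⟩ | ⟨rfl, -⟩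
      · exact htouch.1 hy
      · exact htouch.2 hy
    have hcA : c ∈ clf (T.erase f') a :=
      clf_step (mem_inter.1 (hsub hb)).2 (mem_erase.2 ⟨e, hf⟩)
    have := card_le_card (show insert c (clf (T.erase f) a) ⊆ clf (T.erase f') a from
      insert_subset hcA fun y hy => (mem_inter.1 (hsub hy)).2)
    rw [card_insert_of_notMem hc] at this
    rw [sz] at hA hA'
    omega

end Cut

/-- A chain of distinct clusters `C 0, …, C (q + 1)`: the edge `s(x k, y k)` links `C k` to
`C (k + 1)`. -/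
structure IsLink (G : SimpleGraph W) (S : Finset (Sym2 W)) (q : ℕ) (x y : ℕ → W) : Prop where
  adj : ∀ k ≤ q, G.Adj (x k) (y k)
  next : ∀ k < q, y k ∈ clf S (x (k + 1))
  dist : ∀ i j, i < j → j ≤ q → clf S (x i) ≠ clf S (x j)
  last : ∀ i ≤ q, y q ∉ clf S (x i)

/-- The linking edges except the last one. -/
def links (q : ℕ) (x y : ℕ → W) : Finset (Sym2 W) := (range q).image fun k => s(x k, y k)

variable {G : SimpleGraph W} {S : Finset (Sym2 W)} {q : ℕ} {x y : ℕ → W}

lemma mem_links {e : Sym2 W} : e ∈ links q x y ↔ ∃ k < q, s(x k, y k) = e := by simp [links]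

namespace IsLink

variable (h : IsLink G S q x y)
include h

lemma index_eq {i j : ℕ} (hi : i ≤ q) (hj : j ≤ q) {z : W} (h1 : z ∈ clf S (x i))
    (h2 : z ∈ clf S (x j)) : i = j := by
  have e : clf S (x i) = clf S (x j) := (clf_eq_of_mem h1).symm.trans (clf_eq_of_mem h2)
  rcases lt_trichotomy i j with hlt | heq | hgt
  · exact absurd e (h.dist i j hlt hj)
  · exact heq
  · exact absurd e.symm (h.dist j i hgt hi)

lemma not_mem {k : ℕ} (hk : k < q) : s(x k, y k) ∉ S := fun hm => by
  have := h.index_eq hk.le hk (clf_step self_mem_clf hm) (h.next k hk)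
  omega

lemma links_injective {i j : ℕ} (hi : i < q) (hj : j < q)
    (e : s(x i, y i) = s(x j, y j)) : i = j := by
  rcases Sym2.eq_iff.1 e with ⟨e1, -⟩ | ⟨e1, e2⟩
  · exact h.index_eq hi.le hj.le self_mem_clf (e1 ▸ self_mem_clf)
  · have a := h.index_eq hi.le hj self_mem_clf (e1 ▸ h.next j hj)
    have b := h.index_eq hj.le hi self_mem_clf (e2.symm ▸ h.next i hi)
    omega

lemma card_links : (links q x y).card = q := by
  rw [links, card_image_of_injOn fun _ hi _ hj e => h.links_injective (mem_range.1 hi)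
    (mem_range.1 hj) e, card_range]

lemma disjoint_links : Disjoint S (links q x y) := disjoint_right.2 fun e he => by
  obtain ⟨k, hk, rfl⟩ := mem_links.1 he
  exact h.not_mem hk

lemma erase_links {k : ℕ} (hk : k < q) {l : ℕ} (hl : l < q) (hlk : l ≠ k) :
    s(x l, y l) ∈ (S ∪ links q x y).erase s(x k, y k) :=
  mem_erase.2 ⟨fun e => hlk (h.links_injective hl hk e),
    mem_union_right _ (mem_links.2 ⟨l, hl, rfl⟩)⟩

lemma subset_erase {k : ℕ} (hk : k < q) : S ⊆ (S ∪ links q x y).erase s(x k, y k) := fun e he =>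
  mem_erase.2 ⟨fun e' => h.not_mem hk (e' ▸ he), mem_union_left _ he⟩

lemma linked_up {T : Finset (Sym2 W)} (hS : S ⊆ T) {a b : ℕ} (hab : a ≤ b) (hb : b ≤ q)
    (hT : ∀ l, a ≤ l → l < b → s(x l, y l) ∈ T) : x b ∈ clf T (x a) := by
  induction b, hab using Nat.le_induction with
  | base => exact self_mem_clf
  | succ b hab ih =>
    have h1 : y b ∈ clf T (x a) :=
      clf_step (ih (by omega) fun l h1 h2 => hT l h1 (by omega)) (hT b hab (by omega))
    have h2 : y b ∈ clf T (x (b + 1)) := clf_mono hS (h.next b (by omega))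
    rw [← clf_eq_of_mem h1, clf_eq_of_mem h2]
    exact self_mem_clf

lemma clf_le {T : Finset (Sym2 W)} (hT : T ⊆ S ∪ links q x y) {a b : ℕ} (hab : a ≤ b)
    (hb : b ≤ q) (hcut : ∀ l < q, s(x l, y l) ∈ T → l + 1 ≠ a ∧ l ≠ b) :
    clf T (x b) ⊆ (Icc a b).biUnion fun i => clf S (x i) := by
  refine clf_subset (mem_biUnion.2 ⟨b, mem_Icc.2 ⟨hab, le_rfl⟩, self_mem_clf⟩) fun u v hu huv => ?_
  obtain ⟨i, hi, hu⟩ := mem_biUnion.1 hu
  obtain ⟨hai, hib⟩ := mem_Icc.1 hi
  rcases mem_union.1 (hT huv) with hS | hL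
  · exact mem_biUnion.2 ⟨i, hi, clf_step hu hS⟩
  obtain ⟨l, hl, e⟩ := mem_links.1 hL
  obtain ⟨c1, c2⟩ := hcut l hl (e ▸ huv)
  rcases Sym2.eq_iff.1 e with ⟨rfl, rfl⟩ | ⟨rfl, rfl⟩
  · have := h.index_eq (hib.trans hb) hl.le hu self_mem_clf
    exact mem_biUnion.2 ⟨l + 1, mem_Icc.2 ⟨by omega, by omega⟩, h.next l hl⟩
  · have := h.index_eq (hib.trans hb) hl hu (h.next l hl)
    exact mem_biUnion.2 ⟨l, mem_Icc.2 ⟨by omega, by omega⟩, self_mem_clf⟩

lemma clf_ge {T : Finset (Sym2 W)} (hS : S ⊆ T) {a b : ℕ} (hb : b ≤ q)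
    (hT : ∀ l, a ≤ l → l < b → s(x l, y l) ∈ T) :
    ((Icc a b).biUnion fun i => clf S (x i)) ⊆ clf T (x b) := fun u hu => by
  obtain ⟨i, hi, hu⟩ := mem_biUnion.1 hu
  obtain ⟨hai, hib⟩ := mem_Icc.1 hi
  rw [clf_eq_of_mem (h.linked_up hS hib hb fun l h1 h2 => hT l (hai.trans h1) h2)]
  exact clf_mono hS hu

lemma card_biUnion_clf {a : ℕ} :
    ((Icc a q).biUnion fun i => clf S (x i)).card = ∑ i ∈ Icc a q, sz S (x i) := by
  refine card_biUnion fun i hi j hj hij => disjoint_left.2 fun z h1 h2 => hij ?_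
  exact h.index_eq (mem_Icc.1 hi).2 (mem_Icc.1 hj).2 h1 h2

lemma sz_first_le : sz S (x 0) ≤ sz (S ∪ links q x y) (x q) := by
  rw [sz, sz, clf_eq_of_mem (h.linked_up subset_union_left (Nat.zero_le q) le_rfl
    fun l _ hl => mem_union_right _ (mem_links.2 ⟨l, hl, rfl⟩))]
  exact card_le_card (clf_mono subset_union_left)

lemma not_conn_last : y q ∉ clf (S ∪ links q x y) (x q) := fun hy => by
  obtain ⟨i, hi, hyi⟩ := mem_biUnion.1 (h.clf_le Finset.Subset.rfl (Nat.zero_le q) le_rfl
    (fun l hl _ => ⟨by omega, by omega⟩) hy)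
  exact h.last i (mem_Icc.1 hi).2 hyi

/-- Each linking edge is a cut of the merged configuration. -/
lemma cut {k : ℕ} (hk : k < q) (hbig : ∑ i ∈ Icc (k + 1) q, sz S (x i) < sz S (x 0)) :
    Cut (S ∪ links q x y) (x q) (∑ i ∈ Icc (k + 1) q, sz S (x i)) (y k) (x k) := by
  set M := S ∪ links q x y
  have hT : M.erase s(y k, x k) = M.erase s(x k, y k) := by rw [Sym2.eq_swap]
  have e : clf (M.erase s(x k, y k)) (x q) = (Icc (k + 1) q).biUnion fun i => clf S (x i) := by
    refine Finset.Subset.antisymm (h.clf_le (erase_subset _ _) hk le_rfl fun l hl hlT => ?_)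
      (h.clf_ge (h.subset_erase hk) le_rfl fun l h1 h2 => h.erase_links hk h2 (by omega))
    refine ⟨fun e => ?_, by omega⟩
    obtain rfl : l = k := by omega
    exact notMem_erase _ _ hlT
  refine ⟨?_, ?_, ?_, ?_, ?_⟩
  · rw [Sym2.eq_swap]; exact mem_union_right _ (mem_links.2 ⟨k, hk, rfl⟩)
  · rw [clf_eq_of_mem (h.linked_up subset_union_left hk.le le_rfl
      fun l _ hl => mem_union_right _ (mem_links.2 ⟨l, hl, rfl⟩))]
    exact self_mem_clf
  · rw [hT, e]
    intro hm
    obtain ⟨i, hi, hm⟩ := mem_biUnion.1 hm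
    obtain ⟨h1, h2⟩ := mem_Icc.1 hi
    have := h.index_eq hk.le h2 self_mem_clf hm
    omega
  · rw [hT, sz, e, h.card_biUnion_clf]
  · rw [hT]
    refine lt_of_lt_of_le hbig ?_
    rw [sz, sz, clf_eq_of_mem (h.linked_up (h.subset_erase hk) (Nat.zero_le k) hk.le
      fun l _ hl => h.erase_links hk (by omega) (by omega))]
    exact card_le_card (clf_mono (h.subset_erase hk))

end IsLink

/-- The merged configuration, the last edge and the sizes determine the chain. -/
theorem decode {S' : Finset (Sym2 W)} {x' y' : ℕ → W} (h : IsLink G S q x y)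
    (h' : IsLink G S' q x' y') (hM : S ∪ links q x y = S' ∪ links q x' y') (hx : x q = x' q)
    (hy : y q = y' q) (hm : ∀ k < q, sz S (x (k + 1)) = sz S' (x' (k + 1)))
    (hbig : ∑ i ∈ Icc 1 q, sz S (x i) < sz S (x 0))
    (hbig' : ∑ i ∈ Icc 1 q, sz S' (x' i) < sz S' (x' 0)) :
    S = S' ∧ ∀ k ≤ q, x k = x' k ∧ y k = y' k := by
  have hk : ∀ k < q, x k = x' k ∧ y k = y' k := by
    intro k hk
    have hsum : ∑ i ∈ Icc (k + 1) q, sz S (x i) = ∑ i ∈ Icc (k + 1) q, sz S' (x' i) :=
      sum_congr rfl fun i hi => by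
        obtain ⟨h1, h2⟩ := mem_Icc.1 hi
        obtain ⟨m, rfl⟩ : ∃ m, i = m + 1 := ⟨i - 1, by omega⟩
        exact hm m (by omega)
    have hle : Icc (k + 1) q ⊆ Icc 1 q := Icc_subset_Icc_left (by omega)
    have c := h.cut hk (lt_of_le_of_lt (sum_le_sum_of_subset hle) hbig)
    have c' := h'.cut hk (lt_of_le_of_lt (sum_le_sum_of_subset hle) hbig')
    rw [← hM, ← hx, ← hsum] at c'
    exact (c.unique c').symm
  refine ⟨?_, fun k hkq => ?_⟩
  · have hL : links q x y = links q x' y' := image_congr fun k hk' => by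
      obtain ⟨e1, e2⟩ := hk k (mem_range.1 hk')
      simp only [e1, e2]
    have hd := h.disjoint_links
    have hd' := h'.disjoint_links
    rw [← hL] at hd' hM
    ext e
    have := Finset.ext_iff.1 hM e
    simp only [mem_union] at this
    exact ⟨fun he => (this.1 (Or.inl he)).resolve_right (disjoint_left.1 hd he),
      fun he => (this.2 (Or.inl he)).resolve_right (disjoint_left.1 hd' he)⟩
  · rcases lt_or_eq_of_le hkq with hlt | rfl
    · exact hk k hlt
    · exact ⟨hx, hy⟩

lemma wt_links {p : ℝ} (hp : p ≠ 0) {U : Finset (Sym2 W)} (h : IsLink G S q x y)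
    (hU : links q x y ⊆ U) (hS : S ⊆ U) :
    P165.wt p U S = ((1 - p) / p) ^ q * P165.wt p U (S ∪ links q x y) := by
  have hd := h.disjoint_links
  have h1 : (S ∪ links q x y).card = S.card + q := by rw [card_union_of_disjoint hd, h.card_links]
  have h2 : (U \ S).card = (U \ (S ∪ links q x y)).card + q := by
    rw [card_sdiff_of_subset hS, card_sdiff_of_subset (union_subset hS hU), h1]
    have := card_le_card (union_subset hS hU)
    omega
  simp only [P165.wt, h1, h2, pow_add, div_pow]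
  field_simp

end Vale.Agent.P151.Slow
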