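import Vale.Agent.P151.Slow.Forest
import Vale.Agent.P151.Slow.Decode

/-!
Two adjacent vertices rarely belong to different marks: the two branches are merged up to one closed
edge between two clusters that are large compared with what lies between them, and the two-ghost
inequality pays for the merging.
-/

open Finset

namespace Vale.Agent.P151.Slow

open Vale.Agent.P165 Vale.Agent.P151.Fin Vale.Agent.P151.Growth

variable {W : Type*} [DecidableEq W] {G : SimpleGraph W} [G.LocallyFinite]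

/-- `u` and `v` have different marks within the budget. -/
def Border (P : Par) (G : SimpleGraph W) [G.LocallyFinite] (B : ℕ) (u v : W)
    (S : Finset (Sym2 W)) : Prop :=
  Reach G P.W₀ P.Q P.N B u S ∧ Reach G P.W₀ P.Q P.N B v S ∧ owner P G S u ≠ owner P G S v

/-- The vertex of a cluster next to its parent. -/
noncomputable def tl (P : Par) (G : SimpleGraph W) [G.LocallyFinite] (S : Finset (Sym2 W))
    (x : W) : W :=
  open scoped Classical in
    if h : ∃ v ∈ clf S x, G.Adj v (nxt P G S x) then h.choose else x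

variable {P : Par} {S : Finset (Sym2 W)}

lemma tl_mem (x : W) : tl P G S x ∈ clf S x := by
  classical
  rw [tl]
  split
  next h => exact h.choose_spec.1
  next => exact self_mem_clf

lemma tl_adj {x : W} (h : Owned P G S x) (hm : sz S x < P.N) :
    G.Adj (tl P G S x) (nxt P G S x) := by
  classical
  have he := mem_nbs.1 (step_nxt h hm).2.1
  rw [tl, dif_pos he]
  exact he.choose_spec.2

lemma sum_lt_prod {W₀ : ℕ} (hW : 2 ≤ W₀) (f : ℕ → ℕ) :
    ∀ q, (∀ k < q, 1 ≤ f k) → ∑ k ∈ range q, f k < ∏ k ∈ range q, W₀ * f k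
  | 0, _ => by simp
  | q + 1, h => by
    have ih := sum_lt_prod hW f q fun k hk => h k (by omega)
    have hf := h q (by omega)
    rw [sum_range_succ, prod_range_succ]
    set a := ∑ k ∈ range q, f k
    set b := ∏ k ∈ range q, W₀ * f k
    have h1 : b * (2 * f q) ≤ b * (W₀ * f q) :=
      Nat.mul_le_mul_left _ (Nat.mul_le_mul_right _ hW)
    nlinarith

/-- What merging records: the chain, its cut sizes, the position of the border, the big ends. -/
def Good (P : Par) (A q pos : ℕ) (m : Fin q → ℕ) (a b u v : W) (G : SimpleGraph W)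
    (S M : Finset (Sym2 W)) : Prop :=
  ∃ x y : ℕ → W, IsLink G S q x y ∧ pos ≤ q ∧ x pos = u ∧ y pos = v ∧ x q = a ∧ y q = b ∧
    M = S ∪ links q x y ∧ (∀ k : Fin q, m k = sz S (x (k + 1))) ∧
    (A * ∏ k : Fin q, P.W₀ * m k) ^ 4 ≤ sz S (x 0) ∧
    ∑ i ∈ Icc 1 q, sz S (x i) < sz S (x 0)

omit [G.LocallyFinite] in
lemma good_unique {A q pos : ℕ} {m : Fin q → ℕ} {a b u v u' v' : W} {S S' M : Finset (Sym2 W)}
    (h : Good P A q pos m a b u v G S M) (h' : Good P A q pos m a b u' v' G S' M) :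
    u = u' ∧ v = v' ∧ S = S' := by
  obtain ⟨x, y, hl, hp, rfl, rfl, rfl, rfl, rfl, hm, -, hb⟩ := h
  obtain ⟨x', y', hl', -, rfl, rfl, hx, hy, hM, hm', -, hb'⟩ := h'
  obtain ⟨e, hk⟩ := decode hl hl' hM hx.symm hy.symm
    (fun k hk => (hm ⟨k, hk⟩).symm.trans (hm' ⟨k, hk⟩)) hb hb'
  exact ⟨(hk pos hp).1, (hk pos hp).2, e⟩

/-- The merging of a border edge. -/
theorem exists_good {A B J : ℕ} (hA : P.W₀ ≤ A) (hJ : B < P.Q ^ (J + 1))
    (hN : ((A * B * B) ^ 6 ^ (2 * J)) ^ 4 ≤ P.N) (hS : ↑S ⊆ G.edgeSet) {u v : W} (huv : G.Adj u v)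
    (hb : Border P G B u v S) :
    ∃ (q pos : ℕ) (m : Fin q → ℕ) (x y : ℕ → W), q ≤ 2 * B ∧ (∀ k, 1 ≤ m k ∧ m k ≤ P.N) ∧
      (∀ k ≤ q, x k ∈ ball G u ((B + 2) * (P.N + 1) + 1) ∧
        y k ∈ ball G u ((B + 2) * (P.N + 1) + 1)) ∧
      Good P A q pos m (x q) (y q) u v G S (S ∪ links q x y) ∧
      (A * ∏ k : Fin q, P.W₀ * m k) ^ 4 ≤ sz S (y q) ∧ IsLink G S q x y := by
  classical
  obtain ⟨hu, hv, hne⟩ := hb
  have ou : Owned P G S u := ⟨B, hu⟩
  have ov : Owned P G S v := ⟨B, hv⟩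
  obtain ⟨i, hi, j, hj, hbu, hbv⟩ := exists_absorb hA ou ov (cost_le hu) (cost_le hv) hJ hN
  set bu := br P G S u with hbudef
  set bv := br P G S v with hbvdef
  set x : ℕ → W := fun k => if k ≤ i then bu (i - k) else tl P G S (bv (k - i - 1)) with hx
  set y : ℕ → W := fun k => if k < i then tl P G S (bu (i - k - 1)) else bv (k - i) with hy
  set z : ℕ → W := fun k => if k ≤ i then bu (i - k) else bv (k - i - 1) with hz
  have hcl : ∀ k, clf S (x k) = clf S (z k) := fun k => by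
    by_cases hk : k ≤ i
    · simp only [x, z, if_pos hk]
    · simp only [x, z, if_neg hk]; exact clf_eq_of_mem (tl_mem _)
  have hsz : ∀ k, sz S (x k) = sz S (z k) := fun k => by rw [sz, sz, hcl k]
  have hlink : IsLink G S (i + j) x y := by
    refine ⟨fun k hk => ?_, fun k hk => ?_, fun a b hab hbq => ?_, fun a ha => ?_⟩
    · rcases lt_trichotomy k i with hlt | rfl | hgt
      · simp only [x, y, if_pos hlt.le, if_pos hlt]
        have := tl_adj (owned_br ou (i - k - 1)) (lt_len (show i - k - 1 < len P G S u by omega))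
        rw [← br_succ, show i - k - 1 + 1 = i - k by omega] at this
        exact this.symm
      · simp [x, y, bu, bv, huv]
      · simp only [x, y, if_neg (show ¬ k ≤ i by omega), if_neg (show ¬ k < i by omega)]
        have := tl_adj (owned_br ov (k - i - 1)) (lt_len (show k - i - 1 < len P G S v by omega))
        rwa [← br_succ, show k - i - 1 + 1 = k - i by omega] at this
    · rw [hcl]
      by_cases hki : k < i
      · simp only [y, z, if_pos hki, if_pos (show k + 1 ≤ i by omega)]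
        rw [show i - (k + 1) = i - k - 1 by omega]
        exact tl_mem _
      · simp only [y, z, if_neg hki, if_neg (show ¬ k + 1 ≤ i by omega)]
        rw [show k + 1 - i - 1 = k - i by omega]
        exact self_mem_clf
    · rw [hcl, hcl]
      by_cases hb : b ≤ i
      · simp only [z, if_pos hb, if_pos (show a ≤ i by omega)]
        exact (br_distinct ou (show i - b < i - a by omega) (by omega)).symm
      · simp only [z, if_neg hb]
        by_cases ha : a ≤ i
        · simp only [if_pos ha]; exact br_distinct_owner ou ov hne _ _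
        · simp only [if_neg ha]
          exact br_distinct ov (show a - i - 1 < b - i - 1 by omega) (by omega)
    · rw [hcl]
      intro hm
      simp only [y, if_neg (show ¬ i + j < i by omega), show i + j - i = j by omega] at hm
      have e := clf_eq_of_mem hm
      by_cases hai : a ≤ i
      · simp only [z, if_pos hai] at e
        exact br_distinct_owner ou ov hne _ _ e.symm
      · simp only [z, if_neg hai] at e
        exact br_distinct ov (show a - i - 1 < j by omega) hj e.symm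
  have hprod : ∏ k : Fin (i + j), P.W₀ * sz S (x (k + 1)) =
      (∏ k ∈ range i, wgt P S (bu k)) * ∏ k ∈ range j, wgt P S (bv k) := by
    rw [Fin.prod_univ_eq_prod_range (fun k => P.W₀ * sz S (x (k + 1))) (i + j), prod_range_add]
    congr 1
    · rw [← prod_range_reflect (fun k => wgt P S (bu k)) i]
      refine prod_congr rfl fun k hk => ?_
      rw [mem_range] at hk
      simp only [wgt, hsz, z, if_pos (show k + 1 ≤ i by omega)]
      rw [show i - 1 - k = i - (k + 1) by omega]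
    · refine prod_congr rfl fun k _ => ?_
      simp only [wgt, hsz, z, if_neg (show ¬ i + k + 1 ≤ i by omega)]
      rw [show i + k + 1 - i - 1 = k by omega]
  have hphi : A * ∏ k : Fin (i + j), P.W₀ * sz S (x (k + 1)) = phi P G S A u v i j := by
    rw [hprod, phi, mul_assoc]
  have hsum : ∑ k ∈ Icc 1 (i + j), sz S (x k) < sz S (x 0) := by
    have h1 : ∑ k ∈ Icc 1 (i + j), sz S (x k) = ∑ k ∈ range (i + j), sz S (x (k + 1)) := by
      rw [← Ico_add_one_right_eq_Icc, sum_Ico_eq_sum_range, Nat.add_sub_cancel]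
      exact sum_congr rfl fun k _ => by rw [add_comm]
    have h2 := sum_lt_prod P.two_le_W₀ (fun k => sz S (x (k + 1))) (i + j) fun k _ => sz_pos
    rw [← Fin.prod_univ_eq_prod_range] at h2
    have hA1 : 1 ≤ A := le_trans (by linarith [P.two_le_W₀]) hA
    have h3 : phi P G S A u v i j ≤ sz S (x 0) := by
      refine (Nat.le_self_pow (by norm_num) _).trans (hbu.trans_eq ?_)
      simp [hsz, z, bu]
    rw [h1]
    exact lt_of_lt_of_le h2 ((Nat.le_mul_of_pos_left _ hA1).trans (hphi.trans_le h3))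
  have hlen_u := (len_lt_cost ou).le.trans (cost_le hu)
  have hlen_v := (len_lt_cost ov).le.trans (cost_le hv)
  refine ⟨i + j, i, fun k => sz S (x (k + 1)), x, y, by omega, fun k => ⟨sz_pos, ?_⟩,
    fun k hk => ?_, ⟨x, y, hlink, by omega, by simp [x, bu], by simp [y, bv], rfl, rfl, rfl,
      fun _ => rfl, ?_, hsum⟩, ?_, hlink⟩
  · dsimp only
    rw [hsz]
    by_cases hk : (k : ℕ) + 1 ≤ i
    · simp only [z, if_pos hk]
      exact (lt_len (show i - (k + 1) < len P G S u by omega)).le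
    · simp only [z, if_neg hk]
      have := k.2
      exact (lt_len (show (k : ℕ) + 1 - i - 1 < len P G S v by omega)).le
  · have hub : ∀ l ≤ len P G S u, bu l ∈ ball G u ((B + 1) * (P.N + 1) + 1) := fun l hl =>
      ball_mono u (by nlinarith : l * (P.N + 1) ≤ (B + 1) * (P.N + 1) + 1) (br_mem_ball hS ou hl)
    have hvb : ∀ l ≤ len P G S v, bv l ∈ ball G u ((B + 1) * (P.N + 1) + 1) := fun l hl =>
      ball_mono u (by nlinarith : 1 + l * (P.N + 1) ≤ (B + 1) * (P.N + 1) + 1)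
        ((ball_add u 1 _ _).2 ⟨v, mem_ball_succ.2 (Or.inr ⟨u, self_mem_ball u 0, huv⟩),
          br_mem_ball hS ov hl⟩)
    have hup : ∀ w, w ∈ ball G u ((B + 1) * (P.N + 1) + 1) →
        w ∈ ball G u ((B + 2) * (P.N + 1) + 1) := fun w hw =>
      ball_mono u (by nlinarith : (B + 1) * (P.N + 1) + 1 ≤ (B + 2) * (P.N + 1) + 1) hw
    have htl : ∀ w, sz S w ≤ P.N → w ∈ ball G u ((B + 1) * (P.N + 1) + 1) →
        tl P G S w ∈ ball G u ((B + 2) * (P.N + 1) + 1) := fun w hw hmem =>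
      ball_mono u (by nlinarith : (B + 1) * (P.N + 1) + 1 + sz S w ≤ (B + 2) * (P.N + 1) + 1)
        ((ball_add u _ _ _).2 ⟨w, hmem, clf_subset_ball hS w (tl_mem w)⟩)
    constructor
    · by_cases hki : k ≤ i
      · simp only [x, if_pos hki]; exact hup _ (hub _ (by omega))
      · simp only [x, if_neg hki]
        exact htl _ (lt_len (show k - i - 1 < len P G S v by omega)).le (hvb _ (by omega))
    · by_cases hki : k < i
      · simp only [y, if_pos hki]
        exact htl _ (lt_len (show i - k - 1 < len P G S u by omega)).le (hub _ (by omega))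
      · simp only [y, if_neg hki]; exact hup _ (hvb _ (by omega))
  · rw [hphi]
    refine hbu.trans_eq ?_
    simp [hsz, z, bu]
  · rw [hphi]
    refine hbv.trans_eq ?_
    simp [y, bv]

lemma sum_inv_sq_le : ∀ n : ℕ, ∑ m ∈ Icc 1 n, ((m : ℝ) ^ 2)⁻¹ ≤ 2 - if n = 0 then 0 else (n : ℝ)⁻¹
  | 0 => by simp
  | 1 => by norm_num
  | n + 2 => by
    have ih := sum_inv_sq_le (n + 1)
    simp only [Nat.succ_ne_zero, if_false] at ih ⊢
    rw [sum_Icc_succ_top (by omega : 1 ≤ n + 2)]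
    push_cast at ih ⊢
    have h1 : (0 : ℝ) < n + 1 := by positivity
    have h2 : (((n : ℝ) + 2) ^ 2)⁻¹ + ((n : ℝ) + 2)⁻¹ ≤ ((n : ℝ) + 1)⁻¹ := by
      rw [show (((n : ℝ) + 2) ^ 2)⁻¹ + ((n : ℝ) + 2)⁻¹ = ((n : ℝ) + 3) / ((n : ℝ) + 2) ^ 2 by
        field_simp; ring, inv_eq_one_div, div_le_div_iff₀ (by positivity) h1]
      nlinarith
    rw [show (n : ℝ) + 1 + 1 = (n : ℝ) + 2 by ring] at *
    linarith

lemma sum_geom_le (M : ℕ) : ∑ q ∈ range M, ((q : ℝ) + 1) * (1 / 2) ^ q ≤ 4 := by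
  have : ∀ M : ℕ, ∑ q ∈ range M, ((q : ℝ) + 1) * (1 / 2) ^ q + 2 * ((M : ℝ) + 2) * (1 / 2) ^ M
      = 4 := by
    intro M
    induction M with
    | zero => norm_num
    | succ M ih =>
      rw [sum_range_succ, pow_succ]
      push_cast
      linarith
  have h := this M
  have : (0 : ℝ) ≤ 2 * ((M : ℝ) + 2) * (1 / 2) ^ M := by positivity
  linarith

/-- The codes of mergings with at most `Q` inner clusters. -/
noncomputable def codes (qm N : ℕ) : Finset (Σ q : ℕ, ℕ × (Fin q → ℕ)) :=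
  (range (qm + 1)).sigma fun q => range (q + 1) ×ˢ Fintype.piFinset fun _ : Fin q => Icc 1 N

/-- The weight of the codes. -/
lemma sum_codes_le {W₀ A : ℕ} {C₀ : ℝ} (hC₀ : 0 ≤ C₀) (hW : 4 * C₀ ≤ (W₀ : ℝ) ^ 2) (qm N : ℕ) :
    ∑ c ∈ codes qm N, C₀ ^ c.1 * (((A * ∏ k, W₀ * c.2.2 k : ℕ) : ℝ) ^ 2)⁻¹ ≤
      4 * ((A : ℝ) ^ 2)⁻¹ := by
  rw [codes, sum_sigma]
  have key : ∀ q : ℕ, ∑ s ∈ range (q + 1) ×ˢ Fintype.piFinset (fun _ : Fin q => Icc 1 N),
      C₀ ^ q * (((A * ∏ k, W₀ * s.2 k : ℕ) : ℝ) ^ 2)⁻¹ ≤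
        ((A : ℝ) ^ 2)⁻¹ * (((q : ℝ) + 1) * (1 / 2) ^ q) := by
    intro q
    rw [sum_product]
    dsimp only
    rw [sum_const, card_range, nsmul_eq_mul]
    have e : ∀ m : Fin q → ℕ, C₀ ^ q * (((A * ∏ k, W₀ * m k : ℕ) : ℝ) ^ 2)⁻¹ =
        ((A : ℝ) ^ 2)⁻¹ * ∏ k, C₀ / (W₀ : ℝ) ^ 2 * ((m k : ℝ) ^ 2)⁻¹ := by
      intro m
      push_cast
      rw [mul_pow, ← prod_pow, mul_inv, ← prod_inv_distrib, ← Fin.prod_const, mul_left_comm,
        ← prod_mul_distrib]
      congr 1
      refine prod_congr rfl fun k _ => ?_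
      rw [mul_pow, mul_inv, div_eq_mul_inv]; ring
    simp only [e]
    rw [← mul_sum, ← Finset.prod_univ_sum (fun _ : Fin q => Icc 1 N)
      (fun _ m => C₀ / (W₀ : ℝ) ^ 2 * ((m : ℝ) ^ 2)⁻¹), Fin.prod_const, ← mul_sum]
    push_cast
    rw [mul_left_comm]
    refine mul_le_mul_of_nonneg_left (mul_le_mul_of_nonneg_left ?_ (by positivity))
      (by positivity)
    refine pow_le_pow_left₀ (mul_nonneg (div_nonneg hC₀ (sq_nonneg _))
      (sum_nonneg fun m _ => by positivity)) ?_ q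
    have hs : ∑ m ∈ Icc 1 N, ((m : ℝ) ^ 2)⁻¹ ≤ 2 := (sum_inv_sq_le N).trans (by
      split <;> linarith [inv_nonneg.2 (Nat.cast_nonneg (α := ℝ) N)])
    have hc : C₀ / (W₀ : ℝ) ^ 2 ≤ 1 / 4 := by
      rcases eq_or_lt_of_le (sq_nonneg (W₀ : ℝ)) with h0 | h0
      · rw [← h0, div_zero]; norm_num
      · rw [div_le_div_iff₀ h0 (by norm_num)]; linarith
    calc C₀ / (W₀ : ℝ) ^ 2 * ∑ m ∈ Icc 1 N, ((m : ℝ) ^ 2)⁻¹ ≤ 1 / 4 * 2 :=
          mul_le_mul hc hs (sum_nonneg fun m _ => by positivity) (by norm_num)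
      _ = 1 / 2 := by norm_num
  refine (sum_le_sum fun q _ => key q).trans ?_
  rw [← mul_sum, mul_comm (4 : ℝ)]
  exact mul_le_mul_of_nonneg_left (sum_geom_le _) (by positivity)

/-- Border edges are rare. -/
theorem border_sum_le {p : ℝ} (hp : 0 < p) (hp1 : p < 1) {D A B J : ℕ}
    (hD : ∀ x, (G.neighborFinset x).card ≤ D) (hA : P.W₀ ≤ A)
    (hW : 4 * ((1 - p) / p) ≤ (P.W₀ : ℝ) ^ 2) (hJ : B < P.Q ^ (J + 1))
    (hN : ((A * B * B) ^ 6 ^ (2 * J)) ^ 4 ≤ P.N) {Λ : Finset W} {E : Finset (W × W)}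
    (hE : ∀ e ∈ E, G.Adj e.1 e.2 ∧ ball G e.1 ((B + 2) * (P.N + 1) + 1) ⊆ Λ) :
    ∑ e ∈ E, P165.pr p (inEdges G Λ) (Border P G B e.1 e.2) ≤
      4 * (288 * Real.exp (D / 2) / p) * Λ.card / (A : ℝ) ^ 2 := by
  classical
  set U := inEdges G Λ
  set C₀ := (1 - p) / p
  have hC₀ : 0 ≤ C₀ := div_nonneg (by linarith) hp.le
  have hw : ∀ M, 0 ≤ P165.wt p U M := fun M => P165.wt_nonneg hp.le hp1.le U M
  -- the configurations with a border edge
  set Dom := (E ×ˢ U.powerset).filter fun d => Border P G B d.1.1 d.1.2 d.2 with hDom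
  -- the possible results of merging
  set Tgt := (codes (2 * B) P.N) ×ˢ ((Λ.sigma fun a => nbr G Λ a) ×ˢ U.powerset) with hTgt
  set F : ((Σ q : ℕ, ℕ × (Fin q → ℕ)) × ((Σ _ : W, W) × Finset (Sym2 W))) → ℝ := fun t =>
    C₀ ^ t.1.1 * (P165.wt p U t.2.2 *
      ind (Two t.2.1.1 t.2.1.2 ((A * ∏ k, P.W₀ * t.1.2.2 k) ^ 4) t.2.2)) with hF
  have hlhs : ∑ e ∈ E, P165.pr p U (Border P G B e.1 e.2) = ∑ d ∈ Dom, P165.wt p U d.2 := by
    simp only [P165.pr, sum_filter, Dom, sum_product]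
  have hex : ∀ d ∈ Dom, ∃ t ∈ Tgt,
      Good P A t.1.1 t.1.2.1 t.1.2.2 t.2.1.1 t.2.1.2 d.1.1 d.1.2 G d.2 t.2.2 ∧
        P165.wt p U d.2 ≤ F t := by
    intro d hd
    obtain ⟨hd, hb⟩ := mem_filter.1 hd
    obtain ⟨he, hS⟩ := mem_product.1 hd
    rw [mem_powerset] at hS
    have hSe : ↑d.2 ⊆ G.edgeSet := fun f hf => inEdges_edge Λ (hS hf)
    obtain ⟨hadj, hball⟩ := hE _ he
    obtain ⟨q, pos, m, x, y, hq, hm, hxy, hg, hby, hlink⟩ := exists_good hA hJ hN hSe hadj hb
    have hsub : links q x y ⊆ U := fun f hf => by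
      obtain ⟨k, hk, rfl⟩ := mem_links.1 hf
      exact mem_inEdges.2 ⟨hlink.adj k hk.le, hball (hxy k hk.le).1, hball (hxy k hk.le).2⟩
    refine ⟨(⟨q, (pos, m)⟩, (⟨x q, y q⟩, d.2 ∪ links q x y)), ?_, hg, ?_⟩
    · obtain ⟨-, -, -, hp', -⟩ := hg
      simp only [Tgt, codes, mem_product, mem_sigma, mem_range, Fintype.mem_piFinset, mem_Icc,
        mem_powerset, nbr, mem_inter, SimpleGraph.mem_neighborFinset]
      exact ⟨⟨by omega, by omega, hm⟩, ⟨hball (hxy q le_rfl).1, hlink.adj q le_rfl,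
        hball (hxy q le_rfl).2⟩, union_subset hS hsub⟩
    · have hTwo : Two (x q) (y q) ((A * ∏ k, P.W₀ * m k) ^ 4) (d.2 ∪ links q x y) := by
        obtain ⟨x', y', hl', -, -, -, hxq, hyq, hM, -, hb0, -⟩ := hg
        refine ⟨big_iff.2 ?_, big_iff.2 (hby.trans (sz_mono subset_union_left)),
          fun hc => hlink.not_conn_last (mem_clf.2 hc)⟩
        rw [← hxq, hM]
        exact hb0.trans hl'.sz_first_le
      simp only [F, ind_true hTwo, mul_one]
      exact (wt_links hp.ne' hlink hsub hS).le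
  choose g hgT hgG hgW using hex
  set g' : {d // d ∈ Dom} → _ := fun d => g d.1 d.2 with hg'
  have hinj : Set.InjOn g' (↑Dom.attach : Set {d // d ∈ Dom}) := by
    intro d _ d' _ e
    have h1 := hgG d.1 d.2
    have h2 := hgG d'.1 d'.2
    simp only [g'] at e
    rw [← e] at h2
    obtain ⟨e1, e2, e3⟩ := good_unique h1 h2
    exact Subtype.ext (Prod.ext (Prod.ext e1 e2) e3)
  have hF0 : ∀ t, 0 ≤ F t := fun t =>
    mul_nonneg (pow_nonneg hC₀ _) (mul_nonneg (hw _) (ind_nonneg _))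
  calc ∑ e ∈ E, P165.pr p U (Border P G B e.1 e.2) = ∑ d ∈ Dom, P165.wt p U d.2 := hlhs
    _ = ∑ d ∈ Dom.attach, P165.wt p U d.1.2 := (sum_attach Dom fun d => P165.wt p U d.2).symm
    _ ≤ ∑ d ∈ Dom.attach, F (g' d) := sum_le_sum fun d _ => hgW d.1 d.2
    _ = ∑ t ∈ Dom.attach.image g', F t := (sum_image hinj).symm
    _ ≤ ∑ t ∈ Tgt, F t := sum_le_sum_of_subset_of_nonneg
        (image_subset_iff.2 fun d _ => hgT d.1 d.2) fun t _ _ => hF0 t
    _ = ∑ c ∈ codes (2 * B) P.N, C₀ ^ c.1 * ∑ a ∈ Λ, ∑ b ∈ nbr G Λ a,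
          Fin.pr (fun _ => p) U (Two a b ((A * ∏ k, P.W₀ * c.2.2 k) ^ 4)) := by
        simp only [Tgt, F, sum_product, sum_sigma, mul_sum, Fin.pr, ev, Fin.wt, P165.wt,
          prod_const]
    _ ≤ ∑ c ∈ codes (2 * B) P.N, C₀ ^ c.1 *
          (((A * ∏ k, P.W₀ * c.2.2 k : ℕ) : ℝ) ^ 2)⁻¹ *
            (288 * Real.exp (D / 2) / p * Λ.card) := by
        refine sum_le_sum fun c hc => ?_
        rw [mul_assoc]
        refine mul_le_mul_of_nonneg_left ?_ (pow_nonneg hC₀ _)
        have hpos : 0 < A * ∏ k, P.W₀ * c.2.2 k := by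
          refine Nat.mul_pos (by linarith [P.two_le_W₀]) (prod_pos fun k _ => Nat.mul_pos
            (by linarith [P.two_le_W₀]) ?_)
          simp only [codes, mem_sigma, mem_product, Fintype.mem_piFinset, mem_Icc] at hc
          exact (hc.2.2 k).1
        refine (two_ghost hp hp1 hD (pow_pos hpos 4)).trans_eq ?_
        rw [Nat.cast_pow, show ((((A * ∏ k, P.W₀ * c.2.2 k : ℕ) : ℝ)) ^ 4) =
          ((((A * ∏ k, P.W₀ * c.2.2 k : ℕ) : ℝ)) ^ 2) ^ 2 by ring,
          Real.sqrt_sq (by positivity)]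
        ring
    _ ≤ _ := by
        rw [← sum_mul]
        refine (mul_le_mul_of_nonneg_right (sum_codes_le hC₀ hW _ _) (by positivity)).trans_eq ?_
        rw [div_eq_mul_inv _ ((A : ℝ) ^ 2)]
        ring

end Vale.Agent.P151.Slow
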