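import Vale.Agent.P151.Slow.Average
import Vale.Agent.P151.Slow.Border

/-!
The band: clusters with at least `N` but fewer than `n'` vertices are rare, when marks are almost
always within reach and the balls of radius `ρ` are large compared with `n' ^ 2`.
-/

open Finset

namespace Vale.Agent.P151.Slow

open Vale.Agent.P165 Vale.Agent.P151.Fin Vale.Agent.P151.Growth

variable {W : Type*} [DecidableEq W] {G : SimpleGraph W} [G.LocallyFinite]

/-- The probability of a big cluster is the probability inside a ball. -/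
lemma pr_big_eq {p : ℝ} (h0 : 0 ≤ p) (h1 : p ≤ 1) {x : W} {n ρ : ℕ} (hρ : n ≤ ρ)
    {U : Finset (Sym2 W)} (hU : ↑U ⊆ G.edgeSet) (hsub : inEdges G (ball G x ρ) ⊆ U) :
    P165.pr p U (fun S => n ≤ sz S x) = bigP G p x n := by
  have hloc : ∀ U' : Finset (Sym2 W), ↑U' ⊆ G.edgeSet →
      P165.pr p U' (fun S => n ≤ sz S x) ≤
        P165.pr p (inEdges G (ball G x ρ)) (fun S => n ≤ sz S x) := by
    intro U' hU'
    set U₀ := inEdges G (ball G x ρ)
    have e : P165.pr p U' (fun S => n ≤ sz S x) =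
        P165.pr p U' (fun S => n ≤ sz (S ∩ (U' ∩ U₀)) x) := by
      refine P165.pr_congr fun S hS => ?_
      have hSe : ↑S ⊆ G.edgeSet := fun e he => hU' (hS he)
      rw [show S ∩ (U' ∩ U₀) = S ∩ U₀ by rw [← inter_assoc, inter_eq_left.2 hS]]
      exact big_local hSe (fun e he => hSe (mem_inter.1 (mem_coe.1 he)).1)
        (agree_inter hSe Finset.Subset.rfl) hρ
    rw [e, P165.pr_marginal p inter_subset_left (fun T => n ≤ sz T x)]
    exact P165.pr_mono_set h0 h1 inter_subset_right fun _ _ h hn => hn.trans (sz_mono h)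
  have hbig : bigP G p x n = supPr G p (fun S => n ≤ sz S x) := by
    refine le_antisymm (supPr_mono h0 h1 fun S hS => big_iff.1 hS)
      (supPr_mono h0 h1 fun S hS => big_iff.2 hS)
  rw [hbig]
  refine le_antisymm (pr_le_supPr h0 h1 hU) (supPr_le h0 h1 fun U' hU' => ?_)
  exact (hloc U' hU').trans
    (P165.pr_mono_set h0 h1 hsub fun _ _ h hn => hn.trans (sz_mono h))

lemma pr_band_eq {p : ℝ} (h0 : 0 ≤ p) (h1 : p ≤ 1) {x : W} {N n ρ : ℕ} (hNn : N ≤ n) (hρ : n ≤ ρ)
    {U : Finset (Sym2 W)} (hU : ↑U ⊆ G.edgeSet) (hsub : inEdges G (ball G x ρ) ⊆ U) :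
    P165.pr p U (fun S => N ≤ sz S x ∧ sz S x < n) = bigP G p x N - bigP G p x n := by
  rw [← pr_big_eq h0 h1 (hNn.trans hρ) hU hsub, ← pr_big_eq h0 h1 hρ hU hsub, eq_sub_iff_add_eq]
  simp only [← pr_eq_uniform, Fin.pr, ← ev_add]
  refine ev_congr fun S _ => ?_
  by_cases hN : N ≤ sz S x <;> by_cases hn : n ≤ sz S x
  · simp [ind, hN, hn, not_lt.2 hn]
  · simp [ind, hN, hn, not_le.1 hn]
  · omega
  · simp [ind, hN, hn]

/-- The band in one window, configuration by configuration. -/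
lemma band_count_le {P : Par} {B n' m ρ : ℕ} {Ci : ℝ} (hCi : 0 ≤ Ci) (hB : 1 ≤ B)
    (hiso : ∀ A : Finset W, (∀ x, 2 * A.card ≤ (ball G x ρ).card) →
      (A.card : ℝ) ≤ Ci * ∑ u ∈ A, ((G.neighborFinset u \ A).card : ℝ))
    (hvol : ∀ x, 2 * n' ^ 2 ≤ (ball G x ρ).card) (hn' : 0 < n')
    (hm : n' + (B + 1) * (P.N + 1) ≤ m) {core Λ : Finset W}
    (hΛ : ∀ y ∈ core, ball G y m ⊆ Λ) {S : Finset (Sym2 W)} (hS : ↑S ⊆ G.edgeSet) :
    ∑ y ∈ core, ind (P.N ≤ sz S y ∧ sz S y < n') ≤ Λ.card / n' +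
      Ci * ∑ u ∈ core.biUnion (fun y => ball G y (n' + (B + 1) * (P.N + 1))),
        ∑ v ∈ G.neighborFinset u,
          (ind (¬ Reach G P.W₀ P.Q P.N B v S) + ind (Border P G B u v S)) := by
  classical
  set Mid := core.biUnion fun y => ball G y (n' + (B + 1) * (P.N + 1)) with hMid
  set g : W → ℝ := fun u => ∑ v ∈ G.neighborFinset u,
    (ind (¬ Reach G P.W₀ P.Q P.N B v S) + ind (Border P G B u v S))
  have hg : ∀ u, 0 ≤ g u := fun u =>
    sum_nonneg fun v _ => add_nonneg (ind_nonneg _) (ind_nonneg _)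
  set band := core.filter fun y => P.N ≤ sz S y ∧ sz S y < n'
  set 𝒦 := band.image (clf S)
  set Uo : Finset W → Finset W := fun K =>
    Mid.filter fun u => Reach G P.W₀ P.Q P.N B u S ∧ owner P G S u = K
  have hMidΛ : Mid ⊆ Λ := fun z hz => by
    obtain ⟨y, hy, hz⟩ := mem_biUnion.1 hz
    exact hΛ y hy (ball_mono y hm hz)
  have hK : ∀ K ∈ 𝒦, K ⊆ Uo K ∧ K.card ≤ n' := by
    intro K hK
    obtain ⟨y, hy, rfl⟩ := mem_image.1 hK
    obtain ⟨hy, hN, hn⟩ := mem_filter.1 hy
    refine ⟨fun z hz => mem_filter.2 ⟨mem_biUnion.2 ⟨y, hy,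
      ball_mono y (by omega) (clf_subset_ball hS y hz)⟩, ?_, ?_⟩, hn.le⟩
    · exact reach_iff.2 ⟨hB, Or.inl (by rw [sz_eq_of_mem hz]; exact hN)⟩
    · have hr : Reach G P.W₀ P.Q P.N B z S :=
        reach_iff.2 ⟨hB, Or.inl (by rw [sz_eq_of_mem hz]; exact hN)⟩
      rw [owner_mark ⟨B, hr⟩ (by rw [sz_eq_of_mem hz]; exact hN), clf_eq_of_mem hz]
  have hcover : band ⊆ 𝒦.biUnion id := fun y hy =>
    mem_biUnion.2 ⟨clf S y, mem_image_of_mem _ hy, self_mem_clf⟩
  have hdisj : Set.PairwiseDisjoint (↑𝒦 : Set (Finset W)) Uo := fun K _ K' _ hne =>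
    disjoint_left.2 fun u hu hu' => hne ((mem_filter.1 hu).2.2.symm.trans (mem_filter.1 hu').2.2)
  set big := 𝒦.filter fun K => n' ^ 2 < (Uo K).card
  set small := 𝒦.filter fun K => ¬ n' ^ 2 < (Uo K).card
  have hsplit : (band.card : ℝ) ≤ ∑ K ∈ big, (K.card : ℝ) + ∑ K ∈ small, (K.card : ℝ) := by
    rw [sum_filter_add_sum_filter_not]
    exact_mod_cast (card_le_card hcover).trans card_biUnion_le
  have hbig : ∑ K ∈ big, (K.card : ℝ) ≤ Λ.card / n' := by
    rw [le_div_iff₀ (Nat.cast_pos.2 hn')]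
    have h1 : ∑ K ∈ big, K.card * n' ≤ ∑ K ∈ 𝒦, (Uo K).card := by
      refine le_trans (sum_le_sum fun K hK' => ?_)
        (sum_le_sum_of_subset (filter_subset _ _))
      obtain ⟨hK', hlt⟩ := mem_filter.1 hK'
      calc K.card * n' ≤ n' * n' := Nat.mul_le_mul_right _ (hK K hK').2
        _ = n' ^ 2 := (sq n').symm
        _ ≤ _ := hlt.le
    have h2 : ∑ K ∈ 𝒦, (Uo K).card ≤ Λ.card := by
      rw [← card_biUnion hdisj]
      exact card_le_card fun u hu => by
        obtain ⟨K, -, hu⟩ := mem_biUnion.1 hu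
        exact hMidΛ (mem_filter.1 hu).1
    rw [sum_mul]
    exact_mod_cast h1.trans h2
  have hsmall : ∑ K ∈ small, (K.card : ℝ) ≤ Ci * ∑ u ∈ Mid, g u := by
    calc ∑ K ∈ small, (K.card : ℝ) ≤ ∑ K ∈ small, Ci * ∑ u ∈ Uo K, g u := by
          refine sum_le_sum fun K hK' => ?_
          obtain ⟨hK', hle⟩ := mem_filter.1 hK'
          refine le_trans (Nat.cast_le.2 (card_le_card (hK K hK').1)) ?_
          refine (hiso (Uo K) fun x => le_trans ?_ (hvol x)).trans
            (mul_le_mul_of_nonneg_left (sum_le_sum fun u hu => ?_) hCi)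
          · exact Nat.mul_le_mul_left 2 (not_lt.1 hle)
          obtain ⟨huM, hur, huo⟩ := mem_filter.1 hu
          calc ((G.neighborFinset u \ Uo K).card : ℝ)
              = ∑ _v ∈ G.neighborFinset u \ Uo K, (1 : ℝ) := by
                rw [sum_const, nsmul_eq_mul, mul_one]
            _ ≤ ∑ v ∈ G.neighborFinset u \ Uo K,
                (ind (¬ Reach G P.W₀ P.Q P.N B v S) + ind (Border P G B u v S)) := by
                refine sum_le_sum fun v hv => ?_
                obtain ⟨-, hvK⟩ := mem_sdiff.1 hv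
                by_cases hr : Reach G P.W₀ P.Q P.N B v S
                swap
                · rw [ind_true hr]; linarith [ind_nonneg (Border P G B u v S)]
                by_cases ho : owner P G S v = K
                swap
                · rw [ind_true (show Border P G B u v S from
                    ⟨hur, hr, fun e => ho (e.symm.trans huo)⟩)]
                  linarith [ind_nonneg (¬ Reach G P.W₀ P.Q P.N B v S)]
                -- a vertex owned by `K` is near `K`
                exfalso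
                refine hvK (mem_filter.2 ⟨?_, hr, ho⟩)
                obtain ⟨y, hy, hyK⟩ := mem_image.1 hK'
                obtain ⟨hy, -, hn⟩ := mem_filter.1 hy
                have ov : Owned P G S v := ⟨B, hr⟩
                have hz : br P G S v (len P G S v) ∈ clf S y := by
                  rw [hyK, ← ho]; exact self_mem_clf
                have h1 := ball_symm (br_mem_ball hS ov (k := len P G S v) le_rfl)
                have h2 : (len P G S v) * (P.N + 1) ≤ (B + 1) * (P.N + 1) :=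
                  Nat.mul_le_mul_right _ ((len_lt_cost ov).le.trans
                    ((cost_le hr).trans B.le_succ))
                exact mem_biUnion.2 ⟨y, hy, (ball_add y n' _ v).2
                  ⟨_, ball_mono y hn.le (clf_subset_ball hS y hz), ball_mono _ h2 h1⟩⟩
            _ ≤ g u := sum_le_sum_of_subset_of_nonneg sdiff_subset
                fun v _ _ => add_nonneg (ind_nonneg _) (ind_nonneg _)
      _ ≤ _ := by
          rw [← mul_sum]
          refine mul_le_mul_of_nonneg_left ?_ hCi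
          rw [← sum_biUnion (hdisj.subset (coe_subset.2 (filter_subset _ _)))]
          exact sum_le_sum_of_subset_of_nonneg (fun u hu => by
            obtain ⟨K, -, hu⟩ := mem_biUnion.1 hu
            exact (mem_filter.1 hu).1) fun u _ _ => hg u
  refine le_trans (le_of_eq ?_) (hsplit.trans (add_le_add hbig hsmall))
  rw [Finset.natCast_card_filter]
  exact sum_congr rfl fun y _ => by
    by_cases h : P.N ≤ sz S y ∧ sz S y < n' <;> simp [ind, h]

/-- The band is rare. -/
theorem band_le (hG : G.Connected) (hQT : QuasiTransitive G) (hA : ¬ Nonamenable G) {pl : ℝ}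
    (hpl : 0 < pl) :
    ∃ C : ℝ, 0 ≤ C ∧ ∀ (p : ℝ), pl ≤ p → p < 1 → ∀ (P : Par) (A B J n' ρ m₀ : ℕ) (ε : ℝ),
      P.W₀ ≤ A → 4 * ((1 - p) / p) ≤ (P.W₀ : ℝ) ^ 2 → 1 ≤ B → B < P.Q ^ (J + 1) →
      ((A * B * B) ^ 6 ^ (2 * J)) ^ 4 ≤ P.N → P.N ≤ n' → 0 ≤ ε →
      (∀ x, 2 * n' ^ 2 ≤ (ball G x ρ).card) →
      (∀ (z : W) (U : Finset (Sym2 W)), ↑U ⊆ G.edgeSet → inEdges G (ball G z m₀) ⊆ U →
        P165.pr p U (fun S => ¬ Reach G P.W₀ P.Q P.N B z S) ≤ ε) →
      ∀ x, bigP G p x P.N - bigP G p x n' ≤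
        C * (1 / n' + ((ρ : ℝ) + 1) * (ε + 1 / (A : ℝ) ^ 2)) := by
  classical
  obtain ⟨Ca, hCa, hav⟩ := average_bound hG hQT hA
  obtain ⟨Ci, hCi, hiso⟩ := iso_bound hG hQT hA
  obtain ⟨D, hD, -⟩ := exists_ball_bound hQT
  set K₂ := 4 * (288 * Real.exp ((D : ℝ) / 2) / pl)
  have hK₂ : 0 ≤ K₂ := by positivity
  refine ⟨Ca * (1 + Ci * (D + K₂)), by positivity, fun p hplp hp1 P A B J n' ρ m₀ ε hWA hW hB hJ
    hN hNn hε hvol hreach x => ?_⟩
  have hp : 0 < p := hpl.trans_le hplp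
  have hn' : 0 < n' := lt_of_lt_of_le P.one_le_N hNn
  set c := 1 / (n' : ℝ) + Ci * (ρ + 1) * (D * ε + K₂ / (A : ℝ) ^ 2) with hc
  refine (hav (n' + (B + 1) * (P.N + 1) + ((B + 2) * (P.N + 1) + 1 + (m₀ + 1)))
    (fun x => bigP G p x P.N - bigP G p x n') c (fun y => ?_) (fun φ y => ?_)
    (fun core Λ _ hΛ => ?_) x).trans ?_
  · rw [← pr_band_eq hp.le hp1.le hNn le_rfl (inEdges_edge (ball G y n')) Finset.Subset.rfl]
    exact P165.pr_nonneg hp.le hp1.le _ _
  · simp only [bigP_iso hp.le hp1.le]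
  · set m₁ := n' + (B + 1) * (P.N + 1)
    set R₀ := (B + 2) * (P.N + 1) + 1 + (m₀ + 1)
    set U := inEdges G Λ
    set Mid := core.biUnion fun y => ball G y m₁
    have hin : ∀ y ∈ core, ∀ k, k ≤ m₁ + R₀ → ball G y k ⊆ Λ := fun y hy k hk =>
      (ball_mono y hk).trans (hΛ y hy)
    have hsubU : ∀ (z : W) (k : ℕ), ball G z k ⊆ Λ → inEdges G (ball G z k) ⊆ U := by
      intro z k h e
      induction e using Sym2.ind with
      | h a b =>
        intro he
        obtain ⟨h1, h2, h3⟩ := mem_inEdges.1 he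
        exact mem_inEdges.2 ⟨h1, h h2, h h3⟩
    have hMid : ∀ u ∈ Mid, ball G u R₀ ⊆ Λ := fun u hu z hz => by
      obtain ⟨y, hy, hu⟩ := mem_biUnion.1 hu
      exact hΛ y hy ((ball_add y m₁ R₀ z).2 ⟨u, hu, hz⟩)
    have hlhs : ∑ y ∈ core, (bigP G p y P.N - bigP G p y n') =
        ev (fun _ => p) U fun S => ∑ y ∈ core, ind (P.N ≤ sz S y ∧ sz S y < n') := by
      rw [ev_sum]
      refine sum_congr rfl fun y hy => ?_
      rw [← pr_band_eq hp.le hp1.le hNn le_rfl (U := U) (inEdges_edge Λ)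
        (hsubU y n' (hin y hy n' (by omega))), ← pr_eq_uniform]
      rfl
    rw [hlhs]
    refine (ev_mono (fun _ => hp.le) (fun _ => hp1.le) fun S hS =>
      band_count_le (Ci := Ci * ((ρ : ℝ) + 1)) (ρ := ρ) (m := m₁) (by positivity) hB
        (fun A hA => hiso A ρ hA) hvol hn' le_rfl (fun y hy => hin y hy m₁ (by omega))
        (fun e he => inEdges_edge Λ (hS he))).trans ?_
    rw [ev_add, ev_const, ev_mul_left]
    simp only [ev_sum, ev_add, sum_add_distrib]
    have hMidΛ : Mid ⊆ Λ := fun u hu => hMid u hu (self_mem_ball u R₀)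
    have h1 : ∑ u ∈ Mid, ∑ v ∈ G.neighborFinset u,
        ev (fun _ => p) U (fun S => ind (¬ Reach G P.W₀ P.Q P.N B v S)) ≤
          Λ.card * (D * ε) := by
      refine le_trans (sum_le_sum fun u hu => ?_) ((sum_const ((D : ℝ) * ε)).trans_le ?_)
      · calc _ ≤ ∑ _v ∈ G.neighborFinset u, ε := by
              refine sum_le_sum fun v hv => ?_
              have := hreach v U (inEdges_edge Λ) (hsubU v m₀ fun z hz => hMid u hu
                (ball_mono u (by omega : 1 + m₀ ≤ R₀) ((ball_add u 1 m₀ z).2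
                  ⟨v, mem_ball_succ.2 (Or.inr ⟨u, self_mem_ball u 0,
                    (G.mem_neighborFinset _ _).1 hv⟩), hz⟩)))
              rwa [← pr_eq_uniform] at this
          _ ≤ _ := by
              rw [sum_const, nsmul_eq_mul]
              exact mul_le_mul_of_nonneg_right (Nat.cast_le.2 (hD u)) hε
      · rw [nsmul_eq_mul]
        exact mul_le_mul_of_nonneg_right (Nat.cast_le.2 (card_le_card hMidΛ)) (by positivity)
    have h2 : ∑ u ∈ Mid, ∑ v ∈ G.neighborFinset u,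
        ev (fun _ => p) U (fun S => ind (Border P G B u v S)) ≤
          Λ.card * (K₂ / (A : ℝ) ^ 2) := by
      set E := (Mid ×ˢ Λ).filter fun e : W × W => G.Adj e.1 e.2
      have hE : ∀ e : W × W, e ∈ E ↔ e.1 ∈ Mid ∧ e.2 ∈ G.neighborFinset e.1 := fun e => by
        simp only [E, mem_filter, mem_product, SimpleGraph.mem_neighborFinset]
        exact ⟨fun h => ⟨h.1.1, h.2⟩, fun h => ⟨⟨h.1, hMid _ h.1 (ball_mono _ (by omega : 1 ≤ R₀)
          (mem_ball_succ.2 (Or.inr ⟨e.1, self_mem_ball _ 0, h.2⟩)))⟩, h.2⟩⟩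
      rw [← sum_finset_product' E Mid (fun u => G.neighborFinset u) hE]
      refine le_trans (le_of_eq (sum_congr rfl fun e _ => ?_))
        ((border_sum_le (P := P) (A := A) (B := B) (J := J) hp hp1 hD hWA hW hJ hN (Λ := Λ)
          (E := E) fun e he => ?_).trans ?_)
      · rw [← pr_eq_uniform]; rfl
      · obtain ⟨h1, h2⟩ := (hE e).1 he
        exact ⟨(G.mem_neighborFinset _ _).1 h2,
          (ball_mono e.1 (by omega : (B + 2) * (P.N + 1) + 1 ≤ R₀)).trans (hMid _ h1)⟩
      · rw [← mul_div_assoc (Λ.card : ℝ) K₂, mul_comm (Λ.card : ℝ) K₂]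
        refine div_le_div_of_nonneg_right ?_ (by positivity : (0 : ℝ) ≤ (A : ℝ) ^ 2)
        refine mul_le_mul_of_nonneg_right ?_ (Nat.cast_nonneg _)
        exact mul_le_mul_of_nonneg_left (div_le_div_of_nonneg_left (by positivity) hpl hplp)
          (by norm_num)
    refine (add_le_add le_rfl (mul_le_mul_of_nonneg_left (add_le_add h1 h2)
      (by positivity))).trans_eq ?_
    rw [hc]; ring
  · rw [hc, mul_assoc Ca]
    refine mul_le_mul_of_nonneg_left ?_ hCa
    have e1 : (0 : ℝ) ≤ 1 / (n' : ℝ) := by positivity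
    have e2 : (0 : ℝ) ≤ 1 / (A : ℝ) ^ 2 := by positivity
    have e3 : (0 : ℝ) ≤ (ρ + 1 : ℝ) := by positivity
    have : (D : ℝ) * ε + K₂ / (A : ℝ) ^ 2 ≤ (D + K₂) * (ε + 1 / (A : ℝ) ^ 2) := by
      rw [div_eq_mul_one_div K₂]
      nlinarith [mul_nonneg hK₂ hε, mul_nonneg (Nat.cast_nonneg (α := ℝ) D) e2]
    nlinarith [mul_le_mul_of_nonneg_left this (mul_nonneg hCi e3),
      mul_nonneg (mul_nonneg hCi (by positivity : (0 : ℝ) ≤ D + K₂)) e1,
      mul_nonneg e3 (add_nonneg hε e2)]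

end Vale.Agent.P151.Slow
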