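import Vale.Agent.P151.Slow.Cluster

/-!
Blocks: if from every vertex a route to a cluster of at least `n` vertices fails with probability at
most `ε`, then all clusters met in `J` successive blocks from `z` have fewer than `N` vertices with
probability at most `ε ^ J`, as long as what has been met has fewer than `n` vertices in all.
-/

open Finset

namespace Vale.Agent.P151.Slow

open Vale.Agent.P165 Vale.Agent.P151.Fin Vale.Agent.P151.Growth

variable {W : Type*} [DecidableEq W] {G : SimpleGraph W} [G.LocallyFinite]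

/-- One block: everything reached through routes starting next to `R`. -/
noncomputable def blk (G : SimpleGraph W) [G.LocallyFinite] (W₀ h : ℕ) (S : Finset (Sym2 W))
    (R : Finset W) : Finset W :=
  R ∪ (nbs G R).biUnion fun y => lnk G W₀ 0 S h y

/-- What has been met after `i` blocks from `z`. -/
noncomputable def rs (G : SimpleGraph W) [G.LocallyFinite] (W₀ h : ℕ) (S : Finset (Sym2 W))
    (z : W) : ℕ → Finset W
  | 0 => clf S z
  | i + 1 => blk G W₀ h S (rs G W₀ h S z i)

/-- Every cluster met in `J` blocks has fewer than `N` vertices. -/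
def Fail (G : SimpleGraph W) [G.LocallyFinite] (W₀ h N J : ℕ) (z : W)
    (S : Finset (Sym2 W)) : Prop :=
  ∀ y ∈ rs G W₀ h S z J, sz S y < N

/-- A union of clusters. -/
def Closed (S : Finset (Sym2 W)) (R : Finset W) : Prop := ∀ y ∈ R, clf S y ⊆ R

variable {W₀ h N : ℕ} {S T : Finset (Sym2 W)} {R : Finset W} {z : W}

lemma blk_closed (hR : Closed S R) : Closed S (blk G W₀ h S R) := fun y hy => by
  rcases mem_union.1 hy with hy | hy
  · exact (hR y hy).trans subset_union_left
  · obtain ⟨v, hv, hy⟩ := mem_biUnion.1 hy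
    exact fun u hu => mem_union_right _ (mem_biUnion.2 ⟨v, hv, lnk_closed hy hu⟩)

lemma rs_closed : ∀ i, Closed S (rs G W₀ h S z i)
  | 0 => fun y hy => by rw [clf_eq_of_mem hy]; exact Finset.Subset.rfl
  | i + 1 => blk_closed (rs_closed i)

lemma rs_mono {i j : ℕ} (hij : i ≤ j) : rs G W₀ h S z i ⊆ rs G W₀ h S z j := by
  induction j, hij using Nat.le_induction with
  | base => exact Finset.Subset.rfl
  | succ j _ ih => exact ih.trans subset_union_left

lemma self_mem_rs (i : ℕ) : z ∈ rs G W₀ h S z i := rs_mono (Nat.zero_le i) self_mem_clf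

lemma fail_mono {i j : ℕ} (hij : i ≤ j) (hf : Fail G W₀ h N j z S) : Fail G W₀ h N i z S :=
  fun y hy => hf y (rs_mono hij hy)

lemma not_mem_of_closed (hR : Closed S R) {x v : W} (hx : x ∉ R) (hv : v ∈ clf S x) : v ∉ R :=
  fun h => hx (hR v h (by rw [clf_eq_of_mem hv]; exact self_mem_clf))

/-- Outside a union of clusters the clusters are those of the edges away from it. -/
lemma clf_away (hR : Closed S R) {x : W} (hx : x ∉ R) :
    clf (away (↑R : Set W) S) x = clf S x := by
  refine clf_congr fun e he => ⟨fun h => mem_away.2 ⟨h, fun u hu => ?_⟩, fun h => (mem_away.1 h).1⟩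
  obtain ⟨v, hv, hvc⟩ := he
  exact fun huR => not_mem_of_closed hR hx
    (mem_clf.2 (cl_edge h hv hu (mem_clf.1 hvc))) (mem_coe.1 huR)

lemma clf_away_self {x : W} (hx : x ∈ R) : clf (away (↑R : Set W) S) x = {x} := by
  refine Finset.Subset.antisymm (clf_subset (mem_singleton_self x) fun a b ha hab => ?_)
    (singleton_subset_iff.2 self_mem_clf)
  obtain rfl := mem_singleton.1 ha
  exact absurd (mem_coe.2 hx) ((mem_away.1 hab).2 _ (Sym2.mem_mk_left _ _))

lemma lnk_subset_blk (hin : ∀ x ∈ R, clf S x ⊆ R) (hout : ∀ x ∉ R, clf S x = clf T x) {b : ℕ}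
    (hb : b ≤ h) {x : W} :
    lnk G W₀ 0 S b x ⊆ R ∪ lnk G W₀ 0 T b x ∪ blk G W₀ h T R := by
  induction b using Nat.strong_induction_on generalizing x with
  | _ b ih =>
    intro u hu
    rcases mem_lnk.1 hu with hu | ⟨hw, y, hy, hu⟩ | ⟨hw, -⟩
    · by_cases hx : x ∈ R
      · exact mem_union_left _ (mem_union_left _ (hin x hx hu))
      · exact mem_union_left _ (mem_union_right _ (clf_subset_lnk (hout x hx ▸ hu)))
    · have hlt := Nat.div_lt_self (show 0 < b by omega) (show 1 < W₀ * sz S x by omega)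
      rcases mem_union.1 (ih _ hlt (hlt.le.trans hb) hu) with h1 | h1
      swap
      · exact mem_union_right _ h1
      rcases mem_union.1 h1 with h2 | h2
      · exact mem_union_left _ (mem_union_left _ h2)
      by_cases hx : x ∈ R
      · exact mem_union_right _ (mem_union_right _ (mem_biUnion.2
          ⟨y, nbs_mono (hin x hx) hy, lnk_mono (hlt.le.trans hb) y h2⟩))
      · have e : sz S x = sz T x := by rw [sz, sz, hout x hx]
        rw [e] at hw h2
        rw [hout x hx] at hy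
        exact mem_union_left _ (mem_union_right _ (mem_lnk.2 (Or.inr (Or.inl ⟨hw, y, hy, h2⟩))))
    · omega

lemma blk_subset_blk (hin : ∀ x ∈ R, clf S x ⊆ R) (hout : ∀ x ∉ R, clf S x = clf T x) :
    blk G W₀ h S R ⊆ blk G W₀ h T R := fun u hu => by
  rcases mem_union.1 hu with hu | hu
  · exact mem_union_left _ hu
  · obtain ⟨y, hy, hu⟩ := mem_biUnion.1 hu
    rcases mem_union.1 (lnk_subset_blk (G := G) hin hout le_rfl hu) with h1 | h1
    swap
    · exact h1
    rcases mem_union.1 h1 with h2 | h2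
    · exact mem_union_left _ h2
    · exact mem_union_right _ (mem_biUnion.2 ⟨y, hy, h2⟩)

/-- A block only sees the edges away from where it starts. -/
lemma blk_away (hR : Closed S R) :
    blk G W₀ h (away (↑R : Set W) S) R = blk G W₀ h S R := by
  refine Finset.Subset.antisymm
    (blk_subset_blk (fun x hx => ?_) fun x hx => clf_away hR hx)
    (blk_subset_blk hR fun x hx => (clf_away hR hx).symm)
  rw [clf_away_self hx]
  exact singleton_subset_iff.2 hx

/-- What has been met is decided by the clusters in it. -/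
lemma rs_congr {i : ℕ} (hR : rs G W₀ h S z i = R) (hc : ∀ y ∈ R, clf T y = clf S y) :
    rs G W₀ h T z i = R := by
  subst hR
  have : ∀ j, j ≤ i → rs G W₀ h T z j = rs G W₀ h S z j := by
    intro j
    induction j with
    | zero => exact fun _ => hc z (self_mem_rs i)
    | succ j ih =>
      intro hj
      rw [rs, rs, ih (by omega), blk, blk]
      congr 1
      refine biUnion_congr rfl fun y hy => lnk_congr fun v hv => hc v ?_
      exact rs_mono hj (mem_union_right _ (mem_biUnion.2 ⟨y, hy, hv⟩))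
  exact this i le_rfl

lemma clf_near {x : W} (hx : clf S x ⊆ R) : clf (near (↑R : Set W) S) x = clf S x :=
  clf_congr fun _ he => ⟨fun h => mem_near.2 ⟨h, he.imp fun _ hv => ⟨hv.1, hx hv.2⟩⟩,
    fun h => (mem_near.1 h).1⟩

lemma clf_of_near {x : W} (hx : clf (near (↑R : Set W) S) x ⊆ R) :
    clf S x = clf (near (↑R : Set W) S) x :=
  clf_congr fun _ he => ⟨fun h => (mem_near.1 h).1,
    fun h => mem_near.2 ⟨h, he.imp fun _ hv => ⟨hv.1, hx hv.2⟩⟩⟩

/-- The event that `R` has been met after `i` blocks without success is an event of the edges at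
`R`. -/
lemma rs_near_iff {i : ℕ} :
    (rs G W₀ h S z i = R ∧ Fail G W₀ h N i z S) ↔
      (rs G W₀ h (near (↑R : Set W) S) z i = R ∧ Fail G W₀ h N i z (near (↑R : Set W) S)) := by
  constructor
  · rintro ⟨hR, hf⟩
    have hc : ∀ y ∈ R, clf (near (↑R : Set W) S) y = clf S y := fun y hy => by
      refine clf_near ?_
      subst hR
      exact rs_closed i y hy
    have hR' := rs_congr hR hc
    refine ⟨hR', fun y hy => ?_⟩
    rw [hR'] at hy
    rw [sz, hc y hy]
    exact hf y (hR ▸ hy)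
  · rintro ⟨hR, hf⟩
    have hc : ∀ y ∈ R, clf S y = clf (near (↑R : Set W) S) y := fun y hy => by
      refine clf_of_near ?_
      have := rs_closed (G := G) (W₀ := W₀) (h := h) (z := z)
        (S := near (↑R : Set W) S) i y (hR.symm ▸ hy)
      rwa [hR] at this
    have hR' := rs_congr hR hc
    refine ⟨hR', fun y hy => ?_⟩
    rw [hR'] at hy
    rw [sz, hc y hy]
    exact hf y (hR.symm ▸ hy)

lemma card_blk_le {D : ℕ} (hD : ∀ x, (G.neighborFinset x).card ≤ D) (hW : 2 * D ≤ W₀)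
    (hs : ∀ y ∈ blk G W₀ h S R, sz S y < N) :
    (blk G W₀ h S R).card ≤ R.card * (1 + D * (N * (2 * h + 1))) := by
  refine (card_union_le _ _).trans ?_
  rw [Nat.mul_add, Nat.mul_one, ← Nat.mul_assoc]
  refine Nat.add_le_add_left ((card_biUnion_le_card_mul _ _ _ fun y hy =>
    card_lnk_le hD hW fun v hv => hs v (mem_union_right _ (mem_biUnion.2 ⟨y, hy, hv⟩))).trans
      (Nat.mul_le_mul_right _ (card_nbs_le hD R))) _

lemma card_rs_le {D : ℕ} (hD : ∀ x, (G.neighborFinset x).card ≤ D) (hW : 2 * D ≤ W₀) :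
    ∀ {i : ℕ}, Fail G W₀ h N i z S →
      (rs G W₀ h S z i).card ≤ N * (1 + D * (N * (2 * h + 1))) ^ i
  | 0, hf => by rw [pow_zero, mul_one]; exact (hf z self_mem_clf).le
  | i + 1, hf => by
    refine (card_blk_le hD hW hf).trans ?_
    rw [pow_succ, ← Nat.mul_assoc N]
    exact Nat.mul_le_mul_right _ (card_rs_le hD hW (fail_mono i.le_succ hf))

/-- If a block from `R` meets only small clusters, the fresh configuration has no route out. -/
lemma not_route_of_blk {η : Finset (Sym2 W)} (hη : ↑η ⊆ G.edgeSet) (hW : 2 ≤ W₀) {n : ℕ}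
    (hNn : N ≤ n)
    (hs : ∀ y ∈ blk G W₀ h (away (↑R : Set W) η) R,
      sz (away (↑R : Set W) η) y < N)
    (hc : (blk G W₀ h (away (↑R : Set W) η) R).card < n) (hz : z ∈ R) :
    ¬ Route G W₀ h n z η := by
  classical
  set T := away (↑R : Set W) η with hT
  set R₁ := blk G W₀ h T R
  set Z := R ∪ (nbs G R).biUnion (clf T)
  have hZ : Z ⊆ R₁ := union_subset_union_right (biUnion_mono fun y _ => clf_subset_lnk)
  have hZc : ∀ a b, a ∈ Z → s(a, b) ∈ η → b ∈ Z := by
    intro a b ha hab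
    by_cases hb : b ∈ R
    · exact mem_union_left _ hb
    refine mem_union_right _ (mem_biUnion.2 ?_)
    by_cases haR : a ∈ R
    · exact ⟨b, mem_nbs.2 ⟨a, haR, hη hab⟩, self_mem_clf⟩
    rcases mem_union.1 ha with ha | ha
    · exact absurd ha haR
    obtain ⟨y, hy, hay⟩ := mem_biUnion.1 ha
    refine ⟨y, hy, clf_step hay (mem_away.2 ⟨hab, fun u hu => ?_⟩)⟩
    rcases Sym2.mem_iff.1 hu with rfl | rfl
    · exact fun h => haR (mem_coe.1 h)
    · exact fun h => hb (mem_coe.1 h)
  have hmeet : ∀ x, (∃ v ∈ clf η x, v ∈ R) → clf η x ⊆ Z := fun x ⟨v, hv, hvR⟩ => by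
    rw [← clf_eq_of_mem hv]
    exact clf_subset (mem_union_left _ hvR) hZc
  have hsep : ∀ x, (¬ ∃ v ∈ clf η x, v ∈ R) → clf T x = clf η x := fun x hx =>
    clf_congr fun e he => ⟨fun h => mem_away.2 ⟨h, fun u hu huR => hx ⟨u,
      mem_clf.2 (cl_edge h he.choose_spec.1 hu (mem_clf.1 he.choose_spec.2)), mem_coe.1 huR⟩⟩,
      fun h => (mem_away.1 h).1⟩
  suffices key : ∀ b, b ≤ h → ∀ x, ((∃ v ∈ clf η x, v ∈ R) ∨ lnk G W₀ 0 T b x ⊆ R₁) →
      ¬ Route G W₀ b n x η from key h le_rfl z (Or.inl ⟨z, self_mem_clf, hz⟩)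
  intro b
  induction b using Nat.strong_induction_on with
  | _ b ih =>
    intro hb x hx hr
    rcases route_iff.1 hr with hn | ⟨hw, y', hy', hr⟩
    · by_cases hm : ∃ v ∈ clf η x, v ∈ R
      · have := card_le_card ((hmeet x hm).trans hZ)
        rw [sz] at hn
        omega
      · have := hs x ((hx.resolve_left hm) self_mem_lnk)
        rw [sz, hsep x hm] at this
        rw [sz] at hn
        omega
    have hlt := Nat.div_lt_self (show 0 < b by omega) (show 1 < W₀ * sz η x by omega)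
    refine ih _ hlt (hlt.le.trans hb) y' ?_ hr
    by_cases hm' : ∃ v ∈ clf η y', v ∈ R
    · exact Or.inl hm'
    refine Or.inr ?_
    obtain ⟨y, hy, hyy⟩ := mem_nbs.1 hy'
    by_cases hm : ∃ v ∈ clf η x, v ∈ R
    · by_cases hyR : y ∈ R
      · exact fun u hu => mem_union_right _ (mem_biUnion.2
          ⟨y', mem_nbs.2 ⟨y, hyR, hyy⟩, lnk_mono (hlt.le.trans hb) y' hu⟩)
      rcases mem_union.1 (hmeet x hm hy) with hy2 | hy2
      · exact absurd hy2 hyR
      obtain ⟨y₀, hy₀, hy2⟩ := mem_biUnion.1 hy2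
      have hle : sz T y₀ ≤ sz η x := by
        rw [← sz_eq_of_mem hy2, ← sz_eq_of_mem hy]
        exact sz_mono (away_subset _ _)
      have hpos := sz_pos (S := T) (x := y₀)
      have hmul : W₀ * sz T y₀ ≤ W₀ * sz η x := Nat.mul_le_mul_left _ hle
      intro u hu
      refine mem_union_right _ (mem_biUnion.2 ⟨y₀, hy₀, lnk_mono hb y₀ ?_⟩)
      have h2 : 2 ≤ W₀ * sz T y₀ := le_trans (by omega) (Nat.mul_le_mul hW hpos)
      exact mem_lnk.2 (Or.inr (Or.inl ⟨⟨h2, hmul.trans hw.2⟩, y', mem_nbs.2 ⟨y, hy2, hyy⟩,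
        lnk_mono (Nat.div_le_div_left hmul (by omega)) y' hu⟩))
    · intro u hu
      refine (hx.resolve_left hm) (mem_lnk.2 (Or.inr (Or.inl ⟨?_, y', ?_, ?_⟩)))
      · rwa [sz, hsep x hm]
      · rw [hsep x hm]; exact mem_nbs.2 ⟨y, hy, hyy⟩
      · rwa [sz, hsep x hm]

/-- One more failed block costs a factor `ε`. -/
theorem pr_fail_succ {p ε : ℝ} (h0 : 0 ≤ p) (h1 : p ≤ 1) {D n i : ℕ}
    (hD : ∀ x, (G.neighborFinset x).card ≤ D) (hW : 2 * D ≤ W₀) (hW2 : 2 ≤ W₀) (hN : 2 ≤ N)
    (hn : N * (1 + D * (N * (2 * h + 1))) ^ (i + 1) < n) {U : Finset (Sym2 W)}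
    (hU : ↑U ⊆ G.edgeSet) (hε : P165.pr p U (fun S => ¬ Route G W₀ h n z S) ≤ ε) :
    P165.pr p U (Fail G W₀ h N (i + 1) z) ≤ ε * P165.pr p U (Fail G W₀ h N i z) := by
  classical
  set M := 1 + D * (N * (2 * h + 1)) with hM
  have hε0 : 0 ≤ ε := (P165.pr_nonneg h0 h1 _ _).trans hε
  set 𝓡 := U.powerset.image fun S => rs G W₀ h S z i
  set A : Finset W → Finset (Sym2 W) → Prop := fun R K =>
    rs G W₀ h K z i = R ∧ Fail G W₀ h N i z K
  set B : Finset W → Finset (Sym2 W) → Prop := fun R T =>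
    R.card ≤ N * M ^ i ∧ ∀ y ∈ blk G W₀ h T R, sz T y < N
  have hB : ∀ R, z ∈ R → P165.pr p U (fun η => B R (away (↑R : Set W) η)) ≤ ε := by
    intro R hz
    refine le_trans (P165.pr_mono h0 h1 fun η hη hb => ?_) hε
    refine not_route_of_blk (fun e he => hU (Finset.mem_coe.2 (hη he))) hW2 ?_ hb.2 ?_ hz
    · have : N * 1 ≤ N * M ^ (i + 1) := Nat.mul_le_mul_left _ (Nat.one_le_pow _ _ (by omega))
      omega
    · refine lt_of_le_of_lt ((card_blk_le hD hW hb.2).trans ?_) hn
      rw [pow_succ, ← Nat.mul_assoc N]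
      exact Nat.mul_le_mul_right _ hb.1
  have hsplit : ∀ R, P165.pr p U (fun S => A R (near (↑R : Set W) S) ∧
      B R (away (↑R : Set W) S)) =
      P165.pr p U (fun S => A R (near (↑R : Set W) S)) *
        P165.pr p U (fun S => B R (away (↑R : Set W) S)) := by
    intro R
    simp only [← pr_eq_uniform, Fin.pr, ind_and]
    exact ev_indep (p := fun _ => p) (U := U) (↑R : Set W) (fun K => ind (A R K))
      fun K => ind (B R K)
  refine (P165.pr_le_sum h0 h1 𝓡 (fun R S => A R (near (↑R : Set W) S) ∧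
    B R (away (↑R : Set W) S)) fun S hS hf => ?_).trans ?_
  · have hfi := fail_mono i.le_succ hf
    refine ⟨_, mem_image.2 ⟨S, mem_powerset.2 hS, rfl⟩, rs_near_iff.1 ⟨rfl, hfi⟩,
      card_rs_le hD hW hfi, fun y hy => ?_⟩
    have hcl : Closed S (rs G W₀ h S z i) := rs_closed i
    rw [blk_away hcl] at hy
    by_cases hyR : y ∈ rs G W₀ h S z i
    · rw [sz, clf_away_self hyR, card_singleton]; omega
    · rw [sz, clf_away hcl hyR]; exact hf y hy
  calc ∑ R ∈ 𝓡, P165.pr p U (fun S => A R (near (↑R : Set W) S) ∧ B R (away (↑R : Set W) S))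
      ≤ ∑ R ∈ 𝓡, ε * P165.pr p U (fun S => A R (near (↑R : Set W) S)) := by
        refine sum_le_sum fun R hR => ?_
        rw [hsplit, mul_comm]
        refine mul_le_mul_of_nonneg_right (hB R ?_) (P165.pr_nonneg h0 h1 _ _)
        obtain ⟨S, -, rfl⟩ := mem_image.1 hR
        exact self_mem_rs i
    _ ≤ _ := by
        rw [← mul_sum]
        refine mul_le_mul_of_nonneg_left (P165.sum_pr_le h0 h1 𝓡 _
          (fun R _ S _ hA => (rs_near_iff.2 hA).2) fun R _ R' _ S _ hA hA' => ?_) hε0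
        exact (rs_near_iff.2 hA).1.symm.trans (rs_near_iff.2 hA').1

/-- Failure of `J` blocks. -/
theorem pr_fail_le {p ε : ℝ} (h0 : 0 ≤ p) (h1 : p ≤ 1) {D n : ℕ}
    (hD : ∀ x, (G.neighborFinset x).card ≤ D) (hW : 2 * D ≤ W₀) (hW2 : 2 ≤ W₀) (hN : 2 ≤ N)
    {U : Finset (Sym2 W)} (hU : ↑U ⊆ G.edgeSet)
    (hε : P165.pr p U (fun S => ¬ Route G W₀ h n z S) ≤ ε) :
    ∀ {J : ℕ}, N * (1 + D * (N * (2 * h + 1))) ^ J < n →
      P165.pr p U (Fail G W₀ h N J z) ≤ ε ^ J
  | 0, _ => by rw [pow_zero]; exact P165.pr_le_one h0 h1 _ _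
  | J + 1, hn => by
    have hle : N * (1 + D * (N * (2 * h + 1))) ^ J < n :=
      lt_of_le_of_lt (Nat.mul_le_mul_left _ (Nat.pow_le_pow_right (by omega) J.le_succ)) hn
    refine (pr_fail_succ h0 h1 hD hW hW2 hN hn hU hε).trans ?_
    rw [pow_succ']
    exact mul_le_mul_of_nonneg_left (pr_fail_le h0 h1 hD hW hW2 hN hU hε hle)
      ((P165.pr_nonneg h0 h1 _ _).trans hε)

lemma rs_subset_lnk {Q : ℕ} (hQ : 2 ≤ Q) (hh : 1 ≤ h) :
    ∀ i, rs G W₀ h S z i ⊆ lnk G W₀ Q S ((Q * h) ^ i) z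
  | 0 => fun _ hy => clf_subset_lnk hy
  | i + 1 => fun y hy => by
    have hpos : 1 ≤ (Q * h) ^ i := Nat.one_le_pow _ _ (Nat.mul_pos (by omega) hh)
    rw [pow_succ]
    rcases mem_union.1 hy with hy | hy
    · exact lnk_mono (Nat.le_mul_of_pos_right _ (Nat.mul_pos (by omega) hh)) z
        (rs_subset_lnk hQ hh i hy)
    · obtain ⟨y', hy', hy⟩ := mem_biUnion.1 hy
      obtain ⟨r, hr, hry⟩ := mem_nbs.1 hy'
      exact lnk_trans hpos (Nat.mul_pos (by omega) hh) (rs_subset_lnk hQ hh i hr)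
        (lnk_junction hh hQ hry (lnk_zero_subset y' hy))

/-- Without a mark within the budget, all the blocks fail. -/
lemma fail_of_not_reach {Q J : ℕ} (hQ : 2 ≤ Q) (hh : 1 ≤ h)
    (hr : ¬ Reach G W₀ Q N ((Q * h) ^ J) z S) : Fail G W₀ h N J z S := fun y hy => by
  by_contra hlt
  exact hr ⟨Nat.one_le_pow _ _ (Nat.mul_pos (by omega) hh), y, rs_subset_lnk hQ hh J hy,
    not_lt.1 hlt⟩

end Vale.Agent.P151.Slow
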