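import Vale.Agent.P151.Growth.Boost

/-!
Clusters of a finite configuration as finite sets, and the vertices that can be reached from a
vertex by a chain of clusters of bounded total weight.

The weight of a cluster of `k` vertices is `W₀ * k`; a cluster may instead be crossed at the fixed
price `Q` (a junction; `Q = 0` forbids junctions). Weights are multiplied along a chain and compared
with a budget.
-/

open Finset

namespace Vale.Agent.P151.Slow

open Vale.Agent.P165 Vale.Agent.P151.Fin Vale.Agent.P151.Growth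

variable {W : Type*} [DecidableEq W]

/-- The cluster of `x` as a finite set. -/
noncomputable def clf (S : Finset (Sym2 W)) (x : W) : Finset W :=
  open scoped Classical in (insert x (S.biUnion fun e => e.toFinset)).filter fun y => y ∈ cl {x} S

/-- The number of vertices in the cluster of `x`. -/
noncomputable def sz (S : Finset (Sym2 W)) (x : W) : ℕ := (clf S x).card

section Basic

variable {S S' : Finset (Sym2 W)} {x y : W}

lemma mem_clf : y ∈ clf S x ↔ y ∈ cl {x} S := by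
  classical
  refine ⟨fun h => (mem_filter.1 h).2, fun h => mem_filter.2 ⟨?_, h⟩⟩
  refine Finset.mem_coe.1
    (cl_subset (Z := ↑(insert x (S.biUnion fun e => e.toFinset))) (by simp) ?_ h)
  intro a b _ hab
  exact mem_coe.2 (mem_insert_of_mem (mem_biUnion.2 ⟨_, hab, by simp⟩))

lemma coe_clf : (↑(clf S x) : Set W) = cl {x} S := by
  ext y; exact mem_clf

lemma self_mem_clf : x ∈ clf S x := mem_clf.2 (subset_cl _ _ rfl)

lemma sz_pos : 0 < sz S x := card_pos.2 ⟨x, self_mem_clf⟩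

lemma clf_eq_of_mem (h : y ∈ clf S x) : clf S y = clf S x := by
  ext v; rw [mem_clf, mem_clf, cl_eq_of_mem (mem_clf.1 h)]

lemma sz_eq_of_mem (h : y ∈ clf S x) : sz S y = sz S x := by rw [sz, sz, clf_eq_of_mem h]

lemma clf_step {a b : W} (ha : a ∈ clf S x) (h : s(a, b) ∈ S) : b ∈ clf S x :=
  mem_clf.2 (cl_step (mem_clf.1 ha) h)

lemma clf_subset {Z : Finset W} (hx : x ∈ Z)
    (hc : ∀ a b, a ∈ Z → s(a, b) ∈ S → b ∈ Z) : clf S x ⊆ Z := fun y hy =>
  mem_coe.1 (cl_subset (Z := (↑Z : Set W)) (by simpa using hx)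
    (fun a b ha hab => mem_coe.2 (hc a b (mem_coe.1 ha) hab)) (mem_clf.1 hy))

lemma clf_mono (h : S ⊆ S') : clf S x ⊆ clf S' x := fun _ hy =>
  mem_clf.2 (cl_mono subset_rfl h (mem_clf.1 hy))

lemma sz_mono (h : S ⊆ S') : sz S x ≤ sz S' x := card_le_card (clf_mono h)

lemma big_iff {n : ℕ} : Big x n S ↔ n ≤ sz S x := by
  refine ⟨fun ⟨Y, hY, hn⟩ => hn.trans (card_le_card fun y hy => mem_clf.2 (hY hy)),
    fun h => ⟨clf S x, by rw [coe_clf], h⟩⟩

/-- Two configurations with the same edges at a cluster have the same cluster. -/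
lemma clf_congr (h : ∀ e, (∃ v ∈ e, v ∈ clf S x) → (e ∈ S ↔ e ∈ S')) :
    clf S' x = clf S x := by
  refine Finset.Subset.antisymm (clf_subset self_mem_clf fun a b ha hab =>
    clf_step ha ((h _ ⟨a, Sym2.mem_mk_left a b, ha⟩).2 hab)) ?_
  have hsub : clf S x ⊆ clf S x ∩ clf S' x := by
    refine clf_subset (mem_inter.2 ⟨self_mem_clf, self_mem_clf⟩) fun a b ha hab => ?_
    obtain ⟨ha, ha'⟩ := mem_inter.1 ha
    exact mem_inter.2 ⟨clf_step ha hab,
      clf_step ha' ((h _ ⟨a, Sym2.mem_mk_left a b, ha⟩).1 hab)⟩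
  exact hsub.trans inter_subset_right

end Basic

variable {G : SimpleGraph W} [G.LocallyFinite]

/-- The neighbours of a finite set. -/
def nbs (G : SimpleGraph W) [G.LocallyFinite] (R : Finset W) : Finset W :=
  R.biUnion fun v => G.neighborFinset v

lemma mem_nbs {R : Finset W} {y : W} : y ∈ nbs G R ↔ ∃ v ∈ R, G.Adj v y := by
  simp [nbs]

lemma nbs_mono {R R' : Finset W} (h : R ⊆ R') : nbs G R ⊆ nbs G R' :=
  biUnion_subset_biUnion_of_subset_left _ h

lemma card_nbs_le {D : ℕ} (hD : ∀ x, (G.neighborFinset x).card ≤ D) (R : Finset W) :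
    (nbs G R).card ≤ R.card * D :=
  card_biUnion_le_card_mul _ _ _ fun v _ => hD v

/-- The vertices reached from `x` through chains of clusters of weight at most `b`, the last
cluster being free. -/
noncomputable def lnk (G : SimpleGraph W) [G.LocallyFinite] (W₀ Q : ℕ) (S : Finset (Sym2 W)) :
    ℕ → W → Finset W
  | b, x => clf S x ∪
      (if _h : 2 ≤ W₀ * sz S x ∧ W₀ * sz S x ≤ b then
        (nbs G (clf S x)).biUnion fun y => lnk G W₀ Q S (b / (W₀ * sz S x)) y else ∅) ∪
      (if _h : 2 ≤ Q ∧ Q ≤ b then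
        (nbs G (clf S x)).biUnion fun y => lnk G W₀ Q S (b / Q) y else ∅)
termination_by b => b
decreasing_by
  all_goals exact Nat.div_lt_self (by omega) (by omega)

/-- A cluster of at least `n` vertices is reached within the budget, without junctions. -/
def Route (G : SimpleGraph W) [G.LocallyFinite] (W₀ b n : ℕ) (x : W) (S : Finset (Sym2 W)) :
    Prop :=
  ∃ y ∈ lnk G W₀ 0 S b x, n ≤ sz S y

/-- A cluster of at least `N` vertices is reached within the budget, junctions allowed. -/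
def Reach (G : SimpleGraph W) [G.LocallyFinite] (W₀ Q N b : ℕ) (x : W) (S : Finset (Sym2 W)) :
    Prop :=
  1 ≤ b ∧ ∃ y ∈ lnk G W₀ Q S b x, N ≤ sz S y

variable {W₀ Q : ℕ} {S S' : Finset (Sym2 W)}

lemma mem_lnk {b : ℕ} {x z : W} :
    z ∈ lnk G W₀ Q S b x ↔ z ∈ clf S x ∨
      ((2 ≤ W₀ * sz S x ∧ W₀ * sz S x ≤ b) ∧
        ∃ y ∈ nbs G (clf S x), z ∈ lnk G W₀ Q S (b / (W₀ * sz S x)) y) ∨
      ((2 ≤ Q ∧ Q ≤ b) ∧ ∃ y ∈ nbs G (clf S x), z ∈ lnk G W₀ Q S (b / Q) y) := by
  rw [lnk]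
  simp only [mem_union, or_assoc]
  refine or_congr Iff.rfl (or_congr ?_ ?_)
  · by_cases h : 2 ≤ W₀ * sz S x ∧ W₀ * sz S x ≤ b
    · rw [dif_pos h, mem_biUnion]; simp [h]
    · rw [dif_neg h]; simp [h]
  · by_cases h : 2 ≤ Q ∧ Q ≤ b
    · rw [dif_pos h, mem_biUnion]; simp [h]
    · rw [dif_neg h]; simp [h]

lemma clf_subset_lnk {b : ℕ} {x : W} : clf S x ⊆ lnk G W₀ Q S b x :=
  fun _ h => mem_lnk.2 (Or.inl h)

lemma self_mem_lnk {b : ℕ} {x : W} : x ∈ lnk G W₀ Q S b x := clf_subset_lnk self_mem_clf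

lemma lnk_eq_of_mem {b : ℕ} {x y : W} (h : y ∈ clf S x) :
    lnk G W₀ Q S b y = lnk G W₀ Q S b x := by
  ext z
  rw [mem_lnk, mem_lnk, clf_eq_of_mem h, sz_eq_of_mem h]

lemma lnk_mono {b b' : ℕ} (h : b ≤ b') (x : W) : lnk G W₀ Q S b x ⊆ lnk G W₀ Q S b' x := by
  induction b using Nat.strong_induction_on generalizing b' x with
  | _ b ih =>
    intro z hz
    rcases mem_lnk.1 hz with hz | ⟨hw, y, hy, hz⟩ | ⟨hw, y, hy, hz⟩
    · exact clf_subset_lnk hz
    · exact mem_lnk.2 (Or.inr (Or.inl ⟨⟨hw.1, hw.2.trans h⟩, y, hy,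
        ih _ (Nat.div_lt_self (by omega) (by omega)) (Nat.div_le_div_right h) y hz⟩))
    · exact mem_lnk.2 (Or.inr (Or.inr ⟨⟨hw.1, hw.2.trans h⟩, y, hy,
        ih _ (Nat.div_lt_self (by omega) (by omega)) (Nat.div_le_div_right h) y hz⟩))

lemma lnk_zero_subset {b : ℕ} (x : W) : lnk G W₀ 0 S b x ⊆ lnk G W₀ Q S b x := by
  induction b using Nat.strong_induction_on generalizing x with
  | _ b ih =>
    intro z hz
    rcases mem_lnk.1 hz with hz | ⟨hw, y, hy, hz⟩ | ⟨hw, -⟩
    · exact clf_subset_lnk hz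
    · exact mem_lnk.2 (Or.inr (Or.inl ⟨hw, y, hy,
        ih _ (Nat.div_lt_self (by omega) (by omega)) y hz⟩))
    · omega

/-- Chains compose. -/
lemma lnk_trans {b c : ℕ} (hb : 1 ≤ b) (hc : 1 ≤ c) {x y : W}
    (hy : y ∈ lnk G W₀ Q S b x) :
    lnk G W₀ Q S c y ⊆ lnk G W₀ Q S (b * c) x := by
  induction b using Nat.strong_induction_on generalizing x with
  | _ b ih =>
    rcases mem_lnk.1 hy with hy | ⟨hw, y', hy', hy⟩ | ⟨hw, y', hy', hy⟩
    · rw [lnk_eq_of_mem hy]; exact lnk_mono (Nat.le_mul_of_pos_left c hb) x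
    · intro z hz
      have hle : b / (W₀ * sz S x) * c ≤ b * c / (W₀ * sz S x) := (Nat.le_div_iff_mul_le (by omega)).2
        ((mul_right_comm _ _ _).trans_le (Nat.mul_le_mul_right c (Nat.div_mul_le_self b _)))
      exact mem_lnk.2 (Or.inr (Or.inl ⟨⟨hw.1, hw.2.trans (Nat.le_mul_of_pos_right b hc)⟩, y', hy',
        lnk_mono hle y' (ih _ (Nat.div_lt_self (by omega) (by omega))
          (Nat.div_pos hw.2 (by omega)) hy hz)⟩))
    · intro z hz
      have hle : b / Q * c ≤ b * c / Q := (Nat.le_div_iff_mul_le (by omega)).2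
        ((mul_right_comm _ _ _).trans_le (Nat.mul_le_mul_right c (Nat.div_mul_le_self b _)))
      exact mem_lnk.2 (Or.inr (Or.inr ⟨⟨hw.1, hw.2.trans (Nat.le_mul_of_pos_right b hc)⟩, y', hy',
        lnk_mono hle y' (ih _ (Nat.div_lt_self (by omega) (by omega))
          (Nat.div_pos hw.2 (by omega)) hy hz)⟩))

/-- A junction. -/
lemma lnk_junction {b : ℕ} (hb : 1 ≤ b) (hQ : 2 ≤ Q) {r y : W} (hy : G.Adj r y) :
    lnk G W₀ Q S b y ⊆ lnk G W₀ Q S (Q * b) r := fun z hz =>
  mem_lnk.2 (Or.inr (Or.inr ⟨⟨hQ, Nat.le_mul_of_pos_right Q hb⟩, y,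
    mem_nbs.2 ⟨r, self_mem_clf, hy⟩, by rwa [Nat.mul_div_cancel_left _ (by omega)]⟩))

/-- The vertices reached are unions of clusters. -/
lemma lnk_closed {b : ℕ} {x y : W} (hy : y ∈ lnk G W₀ Q S b x) :
    clf S y ⊆ lnk G W₀ Q S b x := by
  induction b using Nat.strong_induction_on generalizing x with
  | _ b ih =>
    rcases mem_lnk.1 hy with hy | ⟨hw, y', hy', hy⟩ | ⟨hw, y', hy', hy⟩
    · rw [clf_eq_of_mem hy]; exact clf_subset_lnk
    · exact fun z hz => mem_lnk.2 (Or.inr (Or.inl ⟨hw, y', hy',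
        ih _ (Nat.div_lt_self (by omega) (by omega)) hy hz⟩))
    · exact fun z hz => mem_lnk.2 (Or.inr (Or.inr ⟨hw, y', hy',
        ih _ (Nat.div_lt_self (by omega) (by omega)) hy hz⟩))

/-- Two configurations with the same clusters along the chains reach the same vertices. -/
lemma lnk_congr {b : ℕ} {x : W}
    (h : ∀ y ∈ lnk G W₀ Q S b x, clf S' y = clf S y) :
    lnk G W₀ Q S' b x = lnk G W₀ Q S b x := by
  induction b using Nat.strong_induction_on generalizing x with
  | _ b ih =>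
    have hx := h x self_mem_lnk
    have hs : sz S' x = sz S x := by rw [sz, sz, hx]
    ext z
    rw [mem_lnk, mem_lnk, hx, hs]
    refine or_congr Iff.rfl (or_congr (and_congr_right fun hw => ?_)
      (and_congr_right fun hw => ?_))
    · refine exists_congr fun y => and_congr_right fun hy => ?_
      rw [ih _ (Nat.div_lt_self (by omega) (by omega)) fun v hv =>
        h v (mem_lnk.2 (Or.inr (Or.inl ⟨hw, y, hy, hv⟩)))]
    · refine exists_congr fun y => and_congr_right fun hy => ?_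
      rw [ih _ (Nat.div_lt_self (by omega) (by omega)) fun v hv =>
        h v (mem_lnk.2 (Or.inr (Or.inr ⟨hw, y, hy, hv⟩)))]

/-- Without junctions, and through clusters below `N`, few vertices are reached. -/
lemma card_lnk_le {D : ℕ} (hD : ∀ x, (G.neighborFinset x).card ≤ D) (hW : 2 * D ≤ W₀) {N : ℕ}
    {b : ℕ} {x : W} (h : ∀ y ∈ lnk G W₀ 0 S b x, sz S y < N) :
    (lnk G W₀ 0 S b x).card ≤ N * (2 * b + 1) := by
  induction b using Nat.strong_induction_on generalizing x with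
  | _ b ih =>
    have hx : sz S x ≤ N := (h x self_mem_lnk).le
    rw [lnk]
    refine (card_union_le _ _).trans ?_
    rw [dif_neg (show ¬(2 ≤ 0 ∧ 0 ≤ b) by omega), card_empty, add_zero]
    refine (card_union_le _ _).trans ?_
    have h1 : (clf S x).card ≤ N := hx
    split
    next hw =>
      obtain ⟨hw2, hwb⟩ := hw
      set w := W₀ * sz S x with hwdef
      have hdiv : w * (b / w) ≤ b := Nat.mul_div_le b w
      have hq : 1 ≤ b / w := Nat.div_pos hwb (by omega)
      have hbi := card_biUnion_le_card_mul (nbs G (clf S x))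
        (fun y => lnk G W₀ 0 S (b / w) y) _ fun y hy =>
          ih _ (Nat.div_lt_self (by omega) (by omega)) fun v hv =>
            h v (mem_lnk.2 (Or.inr (Or.inl ⟨⟨hw2, hwb⟩, y, hy, hv⟩)))
      have hn : 2 * (nbs G (clf S x)).card ≤ w := by
        refine (Nat.mul_le_mul_left 2 (card_nbs_le hD _)).trans ?_
        calc 2 * (sz S x * D) = 2 * D * sz S x := by ring
          _ ≤ _ := Nat.mul_le_mul_right _ hW
      have : (nbs G (clf S x)).card * (N * (2 * (b / w) + 1)) ≤ N * (2 * b) := by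
        calc (nbs G (clf S x)).card * (N * (2 * (b / w) + 1))
            ≤ (nbs G (clf S x)).card * (N * (4 * (b / w))) := by
              refine Nat.mul_le_mul_left _ (Nat.mul_le_mul_left _ ?_); omega
          _ = N * (2 * (2 * (nbs G (clf S x)).card * (b / w))) := by ring
          _ ≤ N * (2 * (w * (b / w))) := by gcongr
          _ ≤ _ := by gcongr
      calc _ ≤ N + N * (2 * b) := add_le_add h1 (hbi.trans this)
        _ = _ := by ring
    next => rw [card_empty, add_zero]; exact h1.trans (Nat.le_mul_of_pos_right N (by omega))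

/-- A cluster lies in the ball whose radius is its size. -/
lemma clf_subset_ball (hS : ↑S ⊆ G.edgeSet) (x : W) : clf S x ⊆ ball G x (sz S x) := by
  classical
  by_contra hc
  have key : ∀ i, i ≤ sz S x → i + 1 ≤ (clf S x ∩ ball G x i).card := by
    intro i
    induction i with
    | zero => exact fun _ => card_pos.2 ⟨x, mem_inter.2 ⟨self_mem_clf, self_mem_ball x 0⟩⟩
    | succ i ih =>
      intro hi
      have hout : ∃ a b, a ∈ clf S x ∩ ball G x i ∧ s(a, b) ∈ S ∧ b ∉ ball G x i := by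
        by_contra hno
        push Not at hno
        refine hc ((clf_subset (Z := clf S x ∩ ball G x i)
          (mem_inter.2 ⟨self_mem_clf, self_mem_ball x i⟩) fun a b ha hab => mem_inter.2
            ⟨clf_step (mem_inter.1 ha).1 hab, hno a b ha hab⟩).trans
          (inter_subset_right.trans (ball_mono x (by omega : i ≤ sz S x))))
      obtain ⟨a, b, ha, hab, hb⟩ := hout
      have hbi : b ∈ clf S x ∩ ball G x (i + 1) :=
        mem_inter.2 ⟨clf_step (mem_inter.1 ha).1 hab,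
          mem_ball_succ.2 (Or.inr ⟨a, (mem_inter.1 ha).2, hS hab⟩)⟩
      have hsub : insert b (clf S x ∩ ball G x i) ⊆ clf S x ∩ ball G x (i + 1) :=
        insert_subset hbi (inter_subset_inter_left (ball_mono x i.le_succ))
      have := card_le_card hsub
      rw [card_insert_of_notMem fun h => hb (mem_inter.1 h).2] at this
      have := ih (by omega)
      omega
  have := (key (sz S x) le_rfl).trans (card_le_card inter_subset_left)
  rw [sz] at this
  omega

/-- Agreement of two configurations inside a ball. -/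
def Agree (G : SimpleGraph W) [G.LocallyFinite] (x : W) (ρ : ℕ) (S S' : Finset (Sym2 W)) : Prop :=
  ∀ a b, a ∈ ball G x ρ → b ∈ ball G x ρ → (s(a, b) ∈ S ↔ s(a, b) ∈ S')

lemma Agree.symm {x : W} {ρ : ℕ} (h : Agree G x ρ S S') : Agree G x ρ S' S :=
  fun a b ha hb => (h a b ha hb).symm

lemma Agree.mono {x y : W} {ρ σ : ℕ} (h : Agree G x ρ S S') (hsub : ball G y σ ⊆ ball G x ρ) :
    Agree G y σ S S' :=
  fun a b ha hb => h a b (hsub ha) (hsub hb)

lemma agree_inter {U : Finset (Sym2 W)} {x : W} {ρ : ℕ} (hS : ↑S ⊆ G.edgeSet)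
    (hU : inEdges G (ball G x ρ) ⊆ U) : Agree G x ρ S (S ∩ U) :=
  fun a b ha hb => ⟨fun h => mem_inter.2 ⟨h, hU (mem_inEdges.2 ⟨hS h, ha, hb⟩)⟩,
    fun h => (mem_inter.1 h).1⟩

lemma clf_local (hS : ↑S ⊆ G.edgeSet) (hS' : ↑S' ⊆ G.edgeSet) {x : W} {ρ : ℕ}
    (h : Agree G x ρ S S') (hρ : sz S x < ρ) : clf S' x = clf S x := by
  refine clf_congr fun e => ?_
  induction e using Sym2.ind with
  | h a b =>
    rintro ⟨v, hv, hvc⟩
    have hball : v ∈ ball G x (sz S x) := clf_subset_ball hS x hvc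
    have hin : G.Adj a b → a ∈ ball G x ρ ∧ b ∈ ball G x ρ := fun hadj => by
      have h0 := ball_mono x hρ.le hball
      have h1 : ∀ u, G.Adj v u → u ∈ ball G x ρ := fun u hu =>
        ball_mono x (show sz S x + 1 ≤ ρ by omega) (ball_adj hball hu)
      rcases Sym2.mem_iff.1 hv with rfl | rfl
      · exact ⟨h0, h1 _ hadj⟩
      · exact ⟨h1 _ hadj.symm, h0⟩
    exact ⟨fun he => (h a b (hin (hS he)).1 (hin (hS he)).2).1 he,
      fun he => (h a b (hin (hS' he)).1 (hin (hS' he)).2).2 he⟩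

lemma big_local (hS : ↑S ⊆ G.edgeSet) (hS' : ↑S' ⊆ G.edgeSet) {x : W} {ρ n : ℕ}
    (h : Agree G x ρ S S') (hρ : n ≤ ρ) : n ≤ sz S x ↔ n ≤ sz S' x := by
  constructor <;> intro hn <;> by_contra hlt
  · have := clf_local hS' hS h.symm (show sz S' x < ρ by omega)
    rw [sz, this] at hn
    exact hlt hn
  · have := clf_local hS hS' h (show sz S x < ρ by omega)
    rw [sz, this] at hn
    exact hlt hn

lemma route_iff {b n : ℕ} {x : W} :
    Route G W₀ b n x S ↔ n ≤ sz S x ∨ ((2 ≤ W₀ * sz S x ∧ W₀ * sz S x ≤ b) ∧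
      ∃ y ∈ nbs G (clf S x), Route G W₀ (b / (W₀ * sz S x)) n y S) := by
  constructor
  · rintro ⟨y, hy, hn⟩
    rcases mem_lnk.1 hy with hy | ⟨hw, y', hy', hy⟩ | ⟨hw, -⟩
    · exact Or.inl (by rwa [← sz_eq_of_mem hy])
    · exact Or.inr ⟨hw, y', hy', y, hy, hn⟩
    · omega
  · rintro (hn | ⟨hw, y', hy', y, hy, hn⟩)
    · exact ⟨x, self_mem_lnk, hn⟩
    · exact ⟨y, mem_lnk.2 (Or.inr (Or.inl ⟨hw, y', hy', hy⟩)), hn⟩

/-- A route is decided inside a ball. -/
theorem route_local (hW : 2 ≤ W₀) {n : ℕ} :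
    ∀ {b : ℕ} {x : W} {S S' : Finset (Sym2 W)} {ρ : ℕ}, ↑S ⊆ G.edgeSet → ↑S' ⊆ G.edgeSet →
      Agree G x ρ S S' → 2 * b + n ≤ ρ → Route G W₀ b n x S → Route G W₀ b n x S' := by
  intro b
  induction b using Nat.strong_induction_on with
  | _ b ih =>
    intro x S S' ρ hS hS' h hρ hr
    rcases route_iff.1 hr with hn | ⟨hw, y, hy, hr⟩
    · exact route_iff.2 (Or.inl ((big_local hS hS' h (by omega)).1 hn))
    obtain ⟨v, hv, hvy⟩ := mem_nbs.1 hy
    set w := W₀ * sz S x with hwdef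
    have hpos := sz_pos (S := S) (x := x)
    have h2 : 2 * sz S x ≤ w := Nat.mul_le_mul_right _ hW
    have hc := clf_local hS hS' h (show sz S x < ρ by omega)
    have hq : 2 * (b / w) ≤ b := by
      have h1 := Nat.mul_div_le b w
      have h3 : 2 * (b / w) ≤ w * (b / w) := Nat.mul_le_mul_right _ hw.1
      omega
    have hyb : y ∈ ball G x (sz S x + 1) := ball_adj (clf_subset_ball hS x hv) hvy
    have hag : Agree G y (2 * (b / w) + n) S S' := h.mono fun z hz =>
      ball_mono x (show sz S x + 1 + (2 * (b / w) + n) ≤ ρ by omega)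
        ((ball_add x _ _ z).2 ⟨y, hyb, hz⟩)
    refine route_iff.2 (Or.inr ?_)
    rw [show sz S' x = sz S x by rw [sz, sz, hc], hc]
    exact ⟨hw, y, hy, ih _ (Nat.div_lt_self (by omega) (by omega)) hS hS' hag le_rfl hr⟩

/-- Through clusters below `N`, the vertices reached are near. -/
lemma lnk_subset_ball (hS : ↑S ⊆ G.edgeSet) {N : ℕ} {b : ℕ} {x : W}
    (h : ∀ y ∈ lnk G W₀ Q S b x, sz S y < N) :
    lnk G W₀ Q S b x ⊆ ball G x ((b + 1) * (N + 1)) := by
  induction b using Nat.strong_induction_on generalizing x with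
  | _ b ih =>
    intro z hz
    have hx : sz S x < N := h x self_mem_lnk
    have hN : N ≤ (b + 1) * (N + 1) := by nlinarith
    have step : ∀ y ∈ nbs G (clf S x), ∀ b', b' + 1 ≤ b → z ∈ ball G y ((b' + 1) * (N + 1)) →
        z ∈ ball G x ((b + 1) * (N + 1)) := by
      intro y hy b' hb' hzy
      obtain ⟨v, hv, hvy⟩ := mem_nbs.1 hy
      refine ball_mono x ?_ ((ball_add x _ _ z).2 ⟨y, ball_adj (clf_subset_ball hS x hv) hvy, hzy⟩)
      have := Nat.mul_le_mul_right (N + 1) hb'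
      calc sz S x + 1 + (b' + 1) * (N + 1) ≤ (N + 1) + b * (N + 1) := by omega
        _ = _ := by ring
    rcases mem_lnk.1 hz with hz | ⟨hw, y, hy, hz'⟩ | ⟨hw, y, hy, hz'⟩
    · exact ball_mono x (by omega) (clf_subset_ball hS x hz)
    · have hlt := Nat.div_lt_self (show 0 < b by omega) (show 1 < W₀ * sz S x by omega)
      exact step y hy _ hlt (ih _ hlt (fun v hv =>
        h v (mem_lnk.2 (Or.inr (Or.inl ⟨hw, y, hy, hv⟩)))) hz')
    · have hlt := Nat.div_lt_self (show 0 < b by omega) (show 1 < Q by omega)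
      exact step y hy _ hlt (ih _ hlt (fun v hv =>
        h v (mem_lnk.2 (Or.inr (Or.inr ⟨hw, y, hy, hv⟩)))) hz')

end Vale.Agent.P151.Slow
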