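import Vale.Agent.P151.Slow.Start

/-!
No percolation at the threshold on amenable quasi-transitive graphs with stretched exponential
growth.
-/

open Finset MeasureTheory ProbabilityTheory
open scoped unitInterval

namespace Vale.Agent.P151.Slow

open Vale.Agent.P165 Vale.Agent.P151.Fin Vale.Agent.P151.Growth

variable {W : Type*} [DecidableEq W] {G : SimpleGraph W} [G.LocallyFinite]

lemma card_inEdges_ball_le {D : ℕ} (hD : ∀ x, (G.neighborFinset x).card ≤ D)
    (hball : ∀ (x : W) n, (ball G x n).card ≤ (D + 1) ^ n) (z : W) (R : ℕ) :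
    (inEdges G (ball G z R)).card ≤ (D + 1) ^ R * D :=
  (card_biUnion_le_card_mul _ _ _ fun v _ =>
    card_image_le.trans ((card_le_card inter_subset_left).trans (hD v))).trans
    (Nat.mul_le_mul_right _ (hball z R))

/-- Big clusters are bounded by the susceptibility. -/
lemma big_le_chiStar (hG : G.Connected) (hQT : QuasiTransitive G) {q : ℝ} (h0 : 0 ≤ q)
    (hq : q < pc G) (h1 : q ≤ 1) (o : W) (n : ℕ) : (n : ℝ) * bigP G q o n ≤ chiStar G q := by
  classical
  set U := inEdges G (ball G o n)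
  rw [← pr_big_eq h0 h1 le_rfl (inEdges_edge (ball G o n)) Finset.Subset.rfl]
  refine le_trans ?_ (sum_tau_le_chiStar hG hQT h0 hq h1 o (ball G o n))
  refine le_trans ?_ (sum_le_sum fun z _ => pr_le_supPr (Q := conn o z) h0 h1
    (inEdges_edge (ball G o n)))
  simp only [← pr_eq_uniform, Fin.pr, ← ev_sum, ← ev_mul_left]
  refine ev_mono (fun _ => h0) (fun _ => h1) fun S hS => ?_
  by_cases hn : n ≤ sz S o
  · rw [ind_true hn, mul_one]
    calc (n : ℝ) ≤ ((clf S o).card : ℝ) := Nat.cast_le.2 hn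
      _ = ∑ z ∈ clf S o, ind (conn o z S) := by
        rw [sum_congr rfl fun z hz => ind_true (show conn o z S from mem_clf.1 hz), sum_const,
          nsmul_eq_mul, mul_one]
      _ ≤ _ := sum_le_sum_of_subset_of_nonneg (fun z hz => mem_coe.1
          (cl_subset_window hS (self_mem_ball o n) (mem_clf.1 hz))) fun z _ _ => ind_nonneg _
  · rw [ind_false hn, mul_zero]
    exact sum_nonneg fun z _ => ind_nonneg _

/-- Percolation at the threshold is impossible. -/
theorem false_of_theta (hG : G.Connected) (hQT : QuasiTransitive G) (hA : ¬ Nonamenable G)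
    {k Cg : ℕ} (hgrow : ∀ (z : W) (r : ℕ), 1 ≤ r → 2 ^ r ≤ (ball G z (Cg * r ^ k)).card)
    (hpos : 0 < pc G) (h1 : pc G ≤ 1) {θ : ℝ} (hθ : 0 < θ)
    (hb : ∀ x n, θ ≤ bigP G (pc G) x n) : False := by
  classical
  obtain ⟨o⟩ := hG.nonempty
  obtain ⟨D, hD, hball⟩ := exists_ball_bound hQT
  set pl := pc G / 2 with hpl
  obtain ⟨c₀, hc₀⟩ := exists_nat_ge (4 / pl)
  set W₀ := 2 * D + 2 + c₀ with hW₀
  set εs : ℝ := (1 / 2) ^ expo k
  have hεs : 0 < εs := by positivity
  obtain ⟨h, hh, hpc⟩ := exists_budget (G := G) hQT hpos.le h1 (W₀ := W₀) hD (by omega) (by omega)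
    hθ hb (εs := εs / 4) (by positivity)
  obtain ⟨Cst, l₁, hCst, hstep⟩ := step_le hG hQT hA hgrow (show 0 < pl by positivity)
    (W₀ := W₀) hD (by omega) (by omega) hh
  set M : ℝ := ((D : ℝ) + 1) ^ (2 * h)
  have hM : 1 ≤ M := one_le_pow₀ (by linarith [Nat.cast_nonneg (α := ℝ) D])
  obtain ⟨e, he, heM, heθ⟩ : ∃ e : ℝ, 0 < e ∧ M * (2 * Cst * e) ≤ εs / 2 ∧
      2 * Cst * e ≤ θ / 4 := by
    refine ⟨min (εs / 2 / (M * (2 * Cst + 1))) (θ / 4 / (2 * Cst + 1)), by positivity, ?_, ?_⟩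
    · have : min (εs / 2 / (M * (2 * Cst + 1))) (θ / 4 / (2 * Cst + 1)) * (M * (2 * Cst + 1)) ≤
          εs / 2 := (le_div_iff₀ (by positivity)).1 (min_le_left _ _)
      have : 0 ≤ M * min (εs / 2 / (M * (2 * Cst + 1))) (θ / 4 / (2 * Cst + 1)) := by positivity
      linarith
    · have : min (εs / 2 / (M * (2 * Cst + 1))) (θ / 4 / (2 * Cst + 1)) * (2 * Cst + 1) ≤
          θ / 4 := (le_div_iff₀ (by positivity)).1 (min_le_right _ _)
      have : 0 ≤ min (εs / 2 / (M * (2 * Cst + 1))) (θ / 4 / (2 * Cst + 1)) := by positivity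
      linarith
  obtain ⟨l₂, hl₂⟩ := exists_pow_lt_of_lt_one he (show (1 / 2 : ℝ) < 1 by norm_num)
  set l₀ := max l₁ l₂
  have hl₀ : (1 / 2 : ℝ) ^ l₀ ≤ e :=
    (pow_le_pow_of_le_one (by norm_num) (by norm_num) (le_max_right _ _)).trans hl₂.le
  set n₀ := size l₀
  have hn₀ : 2 ≤ n₀ := by
    calc 2 = 2 ^ 1 := rfl
      _ ≤ n₀ := Nat.pow_le_pow_right two_pos Nat.one_le_two_pow
  set MU : ℝ := (((D + 1) ^ (2 * h + n₀) * D : ℕ) : ℝ)
  set η := min (pc G / 2 / n₀) (εs / 4 / (MU + 1))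
  have hη : 0 < η := by positivity
  set q := pc G - η with hq
  have hη1 : η ≤ pc G / 2 :=
    (min_le_left _ _).trans (div_le_self (by positivity) (by exact_mod_cast (by omega : 1 ≤ n₀)))
  have hq0 : 0 < q := by linarith
  have hqpc : q < pc G := by linarith
  have hq1 : q < 1 := by linarith
  have hplq : pl ≤ q := by linarith
  have hW : 4 * ((1 - q) / q) ≤ (W₀ : ℝ) ^ 2 := by
    calc 4 * ((1 - q) / q) ≤ 4 * (1 / pl) := by
          refine mul_le_mul_of_nonneg_left ?_ (by norm_num)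
          exact div_le_div₀ zero_le_one (by linarith) (by positivity) hplq
      _ = 4 / pl := by ring
      _ ≤ c₀ := hc₀
      _ ≤ (W₀ : ℝ) := by exact_mod_cast (by omega : c₀ ≤ W₀)
      _ ≤ _ := le_self_pow₀ (by exact_mod_cast (by omega : 1 ≤ W₀)) two_ne_zero
  have hbig : θ / 2 ≤ bigP G q o n₀ := by
    refine big_below hθ.le hpos h1 hb q o n₀ (by linarith) hqpc ?_
    rw [hq, sub_sub_cancel]
    calc η * n₀ ≤ pc G / 2 / n₀ * n₀ :=
          mul_le_mul_of_nonneg_right (min_le_left _ _) (Nat.cast_nonneg _)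
      _ = _ := div_mul_cancel₀ _ (by positivity)
  have hinit : ∀ z, P165.pr q (inEdges G (ball G z (2 * h + n₀)))
      (fun S => ¬ Route G W₀ h n₀ z S) ≤ εs / 2 := by
    intro z
    set U := inEdges G (ball G z (2 * h + n₀))
    have hl := pr_lipschitz hq0.le hq1.le hpos.le h1 U (fun S => ¬ Route G W₀ h n₀ z S)
    have hcard : (U.card : ℝ) ≤ MU := Nat.cast_le.2 (card_inEdges_ball_le hD hball z _)
    have hMU : 0 ≤ MU := Nat.cast_nonneg _
    have habs : |q - pc G| = η := by rw [hq, sub_sub_cancel_left, abs_neg, abs_of_pos hη]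
    rw [habs] at hl
    have hprod : (U.card : ℝ) * η ≤ εs / 4 := by
      have : η * (MU + 1) ≤ εs / 4 := (le_div_iff₀ (by positivity)).1 (min_le_right _ _)
      nlinarith
    linarith [(abs_le.1 hl).2, hpc n₀ hn₀ z]
  have hclimb := climb (G := G) (D := D) (l₁ := l₁) (Cst := Cst) hq0.le hq1.le
    (show 2 ≤ W₀ by omega) hCst hball (hstep q hplq hq1 hW) (le_max_left l₁ l₂) hinit
    ((mul_le_mul_of_nonneg_left (mul_le_mul_of_nonneg_left hl₀ (by positivity))
      (by positivity)).trans heM) o (l := max l₀ (Nat.ceil (4 * chiStar G q / θ) + 1)) (le_max_left _ _)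
  set l₃ := Nat.ceil (4 * chiStar G q / θ) + 1 with hl₃def
  have hl₃ : 4 * chiStar G q / θ < l₃ := by
    rw [hl₃def]
    push_cast
    linarith [Nat.le_ceil (4 * chiStar G q / θ)]
  set l := max l₀ l₃
  have h5 : θ / 4 ≤ bigP G q o (size l) := by
    linarith [mul_le_mul_of_nonneg_left hl₀ (by positivity : (0 : ℝ) ≤ 2 * Cst)]
  have h6 := big_le_chiStar hG hQT hq0.le hqpc hq1.le o (size l)
  have h7 : (l₃ : ℝ) ≤ size l := by
    have : l₃ ≤ size l := (le_max_right l₀ l₃).trans ((Nat.lt_two_pow_self.le).trans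
      Nat.lt_two_pow_self.le)
    exact_mod_cast this
  rw [div_lt_iff₀ hθ] at hl₃
  have h8 := mul_le_mul h7 h5 (by positivity) (Nat.cast_nonneg _)
  linarith


omit [DecidableEq W] [G.LocallyFinite] in
/-- Everything is open at `p = 1`. -/
lemma infAt_one [Countable W] [Infinite W] (hG : G.Connected) (x : W) :
    bondMeasure G (1 : I) (infAt G x) = 1 := by
  rw [bondMeasure, setBernoulli_one]
  refine Measure.dirac_apply_of_mem ?_
  have hop : openGraph G G.edgeSet = G := by simp [openGraph]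
  simp only [infAt, Set.mem_ofPred_eq, hop]
  exact Set.infinite_univ.mono fun y _ => hG.preconnected x y

lemma infinite_of_growth {o : W} {a c : ℝ} (ha : 0 < a) (hc : 0 < c)
    (h : ∀ᶠ r : ℕ in Filter.atTop, Real.exp (c * (r : ℝ) ^ a) ≤ ((ball G o r).card : ℝ)) :
    Infinite W := by
  by_contra hfin
  rw [not_infinite_iff_finite] at hfin
  have := Fintype.ofFinite W
  have ht : Filter.Tendsto (fun r : ℕ => Real.exp (c * (r : ℝ) ^ a)) Filter.atTop Filter.atTop :=
    Real.tendsto_exp_atTop.comp (Filter.Tendsto.const_mul_atTop hc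
      ((tendsto_rpow_atTop ha).comp tendsto_natCast_atTop_atTop))
  obtain ⟨r, hr1, hr2⟩ := ((ht.eventually_gt_atTop (Fintype.card W : ℝ)).and h).exists
  have : ((ball G o r).card : ℝ) ≤ Fintype.card W := Nat.cast_le.2 (card_le_univ _)
  linarith

/-- No percolation at the threshold, and the threshold is below one. -/
theorem no_percolation_at_pc (hG : G.Connected) (hQT : QuasiTransitive G) (hA : ¬ Nonamenable G)
    {o : W} {a c : ℝ} (ha : 0 < a) (hc : 0 < c)
    (hgrow : ∀ᶠ r : ℕ in Filter.atTop, Real.exp (c * (r : ℝ) ^ a) ≤ ((ball G o r).card : ℝ)) :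
    pc G < 1 ∧ ∀ (p : I), (p : ℝ) = pc G → ∀ x : W, bondMeasure G p (infAt G x) = 0 := by
  have := countable_of_connected hG
  have := infinite_of_growth ha hc hgrow
  have : ∀ p : I, IsProbabilityMeasure (bondMeasure G p) := fun p => by
    unfold bondMeasure; infer_instance
  obtain ⟨k, Cg, hk⟩ := exists_growth hG hQT ha hc hgrow
  have hmain : ∀ (p : I), (p : ℝ) = pc G → ∀ x : W, bondMeasure G p (infAt G x) = 0 := by
    intro p hp x
    by_contra hne
    obtain ⟨hpos, θ, hθ, hb⟩ := big_at_pc hG hQT p hp x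
      (ENNReal.toReal_pos hne (measure_ne_top _ _))
    exact false_of_theta hG hQT hA hk hpos (hp ▸ p.2.2) hθ hb
  refine ⟨?_, hmain⟩
  have hone := infAt_one (G := G) hG o
  have hle : pc G ≤ 1 := by
    refine csInf_le ⟨0, fun t ⟨p, hp, _⟩ => hp ▸ p.2.1⟩ ⟨1, rfl, ?_⟩
    refine lt_of_lt_of_le (hone ▸ zero_lt_one) (measure_mono fun ω hω => ?_)
    refine ⟨(openGraph G ω).connectedComponentMk o, hω.mono fun y hy => ?_⟩
    exact SimpleGraph.ConnectedComponent.sound hy.symm
  refine lt_of_le_of_ne hle fun heq => ?_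
  have := hmain 1 heq.symm o
  rw [hone] at this
  exact one_ne_zero this

end Vale.Agent.P151.Slow
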