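import Vale.Agent.P151.Slow.Cluster

/-!
The forest of parent pointers towards the marks (clusters of at least `N` vertices), and absorption
along two of its branches: on both sides one finds a cluster that is large compared with everything
between them.
-/

open Finset

namespace Vale.Agent.P151.Slow

open Vale.Agent.P165 Vale.Agent.P151.Fin Vale.Agent.P151.Growth

variable {W : Type*} [DecidableEq W] {G : SimpleGraph W} [G.LocallyFinite]

/-- The data of a forest. -/
structure Par where
  W₀ : ℕ
  Q : ℕ
  N : ℕ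
  two_le_W₀ : 2 ≤ W₀
  two_le_Q : 2 ≤ Q
  one_le_N : 1 ≤ N

variable (P : Par) {S : Finset (Sym2 W)}

/-- The weight of a cluster. -/
noncomputable def wgt (S : Finset (Sym2 W)) (x : W) : ℕ := P.W₀ * sz S x

lemma two_le_wgt (S : Finset (Sym2 W)) (x : W) : 2 ≤ wgt P S x :=
  le_trans (by have := P.two_le_W₀; omega) (Nat.mul_le_mul P.two_le_W₀ (sz_pos (S := S) (x := x)))

/-- Some mark is within reach. -/
def Owned (G : SimpleGraph W) [G.LocallyFinite] (S : Finset (Sym2 W)) (x : W) : Prop :=
  ∃ b, Reach G P.W₀ P.Q P.N b x S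

/-- The least budget reaching a mark. -/
noncomputable def cost (G : SimpleGraph W) [G.LocallyFinite] (S : Finset (Sym2 W)) (x : W) : ℕ :=
  sInf {b | Reach G P.W₀ P.Q P.N b x S}

variable {P}

lemma reach_iff {b : ℕ} {x : W} :
    Reach G P.W₀ P.Q P.N b x S ↔ 1 ≤ b ∧ (P.N ≤ sz S x ∨
      (wgt P S x ≤ b ∧ ∃ y ∈ nbs G (clf S x), Reach G P.W₀ P.Q P.N (b / wgt P S x) y S) ∨
      (P.Q ≤ b ∧ ∃ y ∈ nbs G (clf S x), Reach G P.W₀ P.Q P.N (b / P.Q) y S)) := by
  have hw := two_le_wgt P S x
  have hQ := P.two_le_Q
  constructor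
  · rintro ⟨hb, z, hz, hn⟩
    refine ⟨hb, ?_⟩
    rcases mem_lnk.1 hz with hz | ⟨hc, y, hy, hz⟩ | ⟨hc, y, hy, hz⟩
    · exact Or.inl (by rwa [← sz_eq_of_mem hz])
    · exact Or.inr (Or.inl ⟨hc.2, y, hy, Nat.div_pos hc.2 (by omega), z, hz, hn⟩)
    · exact Or.inr (Or.inr ⟨hc.2, y, hy, Nat.div_pos hc.2 (by omega), z, hz, hn⟩)
  · rintro ⟨hb, hn | ⟨hc, y, hy, -, z, hz, hn⟩ | ⟨hc, y, hy, -, z, hz, hn⟩⟩
    · exact ⟨hb, x, self_mem_lnk, hn⟩
    · exact ⟨hb, z, mem_lnk.2 (Or.inr (Or.inl ⟨⟨hw, hc⟩, y, hy, hz⟩)), hn⟩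
    · exact ⟨hb, z, mem_lnk.2 (Or.inr (Or.inr ⟨⟨hQ, hc⟩, y, hy, hz⟩)), hn⟩

lemma reach_of_mem {b : ℕ} {x y : W} (h : y ∈ clf S x) :
    Reach G P.W₀ P.Q P.N b y S ↔ Reach G P.W₀ P.Q P.N b x S := by
  rw [Reach, Reach, lnk_eq_of_mem h]

lemma cost_eq_of_mem {x y : W} (h : y ∈ clf S x) : cost P G S y = cost P G S x := by
  simp only [cost, reach_of_mem h]

lemma owned_iff_of_mem {x y : W} (h : y ∈ clf S x) : Owned P G S y ↔ Owned P G S x := by
  simp only [Owned, reach_of_mem h]

lemma reach_cost {x : W} (h : Owned P G S x) : Reach G P.W₀ P.Q P.N (cost P G S x) x S :=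
  Nat.sInf_mem h

lemma cost_le {b : ℕ} {x : W} (h : Reach G P.W₀ P.Q P.N b x S) : cost P G S x ≤ b := Nat.sInf_le h

variable (P)

/-- `y` can be the parent of the cluster of `x`. -/
def Step (G : SimpleGraph W) [G.LocallyFinite] (S : Finset (Sym2 W)) (x y : W) : Prop :=
  sz S x < P.N ∧ y ∈ nbs G (clf S x) ∧ Owned P G S y ∧
    (wgt P S x * cost P G S y ≤ cost P G S x ∨ P.Q * cost P G S y ≤ cost P G S x)

/-- The parent. -/
noncomputable def nxt (G : SimpleGraph W) [G.LocallyFinite] (S : Finset (Sym2 W)) (x : W) : W :=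
  open scoped Classical in if h : ∃ y, Step P G S x y then h.choose else x

variable {P}

lemma exists_step {x : W} (h : Owned P G S x) (hm : sz S x < P.N) : ∃ y, Step P G S x y := by
  obtain ⟨-, hn | ⟨hc, y, hy, hr⟩ | ⟨hc, y, hy, hr⟩⟩ := reach_iff.1 (reach_cost h)
  · omega
  · exact ⟨y, hm, hy, ⟨_, hr⟩, Or.inl ((Nat.mul_le_mul_left _ (cost_le hr)).trans
      (Nat.mul_div_le _ _))⟩
  · exact ⟨y, hm, hy, ⟨_, hr⟩, Or.inr ((Nat.mul_le_mul_left _ (cost_le hr)).trans
      (Nat.mul_div_le _ _))⟩

lemma step_nxt {x : W} (h : Owned P G S x) (hm : sz S x < P.N) : Step P G S x (nxt P G S x) := by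
  classical
  have he := exists_step h hm
  rw [nxt, dif_pos he]
  exact he.choose_spec

lemma nxt_mark {x : W} (hm : P.N ≤ sz S x) : nxt P G S x = x := by
  classical
  rw [nxt, dif_neg]
  rintro ⟨y, hy, -⟩
  omega

lemma nxt_eq_of_mem {x y : W} (hm : sz S x < P.N) (ho : Owned P G S x) (h : y ∈ clf S x) :
    nxt P G S y = nxt P G S x := by
  classical
  have e : Step P G S y = Step P G S x := by
    funext z
    simp only [Step, wgt, clf_eq_of_mem h, sz_eq_of_mem h, cost_eq_of_mem h]
  have hy : ∃ z, Step P G S x z := exists_step ho hm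
  have key : ∀ (F : W → Prop) (hF : F = Step P G S x) (a : W),
      (if h : ∃ z, F z then h.choose else a) = hy.choose := by
    rintro F rfl a
    exact dif_pos hy
  rw [nxt, nxt, key _ e, key _ rfl]

lemma owned_nxt {x : W} (h : Owned P G S x) : Owned P G S (nxt P G S x) := by
  by_cases hm : sz S x < P.N
  · exact (step_nxt h hm).2.2.1
  · rw [nxt_mark (not_lt.1 hm)]; exact h

lemma cost_nxt {x : W} (h : Owned P G S x) (hm : sz S x < P.N) :
    2 * cost P G S (nxt P G S x) ≤ cost P G S x := by
  rcases (step_nxt h hm).2.2.2 with hh | hh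
  · exact (Nat.mul_le_mul_right _ (two_le_wgt P S x)).trans hh
  · exact (Nat.mul_le_mul_right _ P.two_le_Q).trans hh

lemma one_le_cost {x : W} (h : Owned P G S x) : 1 ≤ cost P G S x := (reach_cost h).1

variable (P)

/-- The branch of the forest at `x`. -/
noncomputable def br (G : SimpleGraph W) [G.LocallyFinite] (S : Finset (Sym2 W)) (x : W)
    (k : ℕ) : W :=
  (nxt P G S)^[k] x

variable {P}

@[simp] lemma br_zero (x : W) : br P G S x 0 = x := rfl

lemma br_succ (x : W) (k : ℕ) : br P G S x (k + 1) = nxt P G S (br P G S x k) := by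
  rw [br, br, Function.iterate_succ_apply']

lemma owned_br {x : W} (h : Owned P G S x) : ∀ k, Owned P G S (br P G S x k)
  | 0 => h
  | k + 1 => by rw [br_succ]; exact owned_nxt (owned_br h k)

lemma exists_mark {x : W} (h : Owned P G S x) :
    ∃ k, P.N ≤ sz S (br P G S x k) ∧ k < cost P G S x := by
  induction hc : cost P G S x using Nat.strong_induction_on generalizing x with
  | _ c ih =>
    subst hc
    have h1 := one_le_cost h
    by_cases hm : sz S x < P.N
    · have h2 := cost_nxt h hm
      obtain ⟨k, hk, hlt⟩ := ih _ (by omega) (owned_nxt h) rfl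
      refine ⟨k + 1, ?_, by omega⟩
      have e : br P G S x (k + 1) = br P G S (nxt P G S x) k := by
        rw [br, br, Function.iterate_succ_apply]
      rwa [e]
    · exact ⟨0, not_lt.1 hm, h1⟩

variable (P)

/-- The number of steps to the mark. -/
noncomputable def len (G : SimpleGraph W) [G.LocallyFinite] (S : Finset (Sym2 W)) (x : W) : ℕ :=
  sInf {k | P.N ≤ sz S (br P G S x k)}

/-- The mark at the end of the branch, as a finite set. -/
noncomputable def owner (G : SimpleGraph W) [G.LocallyFinite] (S : Finset (Sym2 W)) (x : W) :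
    Finset W :=
  clf S (br P G S x (len P G S x))

variable {P}

lemma mark_len {x : W} (h : Owned P G S x) : P.N ≤ sz S (br P G S x (len P G S x)) :=
  Nat.sInf_mem (s := {k | P.N ≤ sz S (br P G S x k)}) ((exists_mark h).imp fun _ hk => hk.1)

lemma lt_len {x : W} {k : ℕ} (hk : k < len P G S x) : sz S (br P G S x k) < P.N :=
  not_le.1 fun h => absurd (Nat.sInf_le (s := {k | P.N ≤ sz S (br P G S x k)}) h) (not_le.2 hk)

lemma len_lt_cost {x : W} (h : Owned P G S x) : len P G S x < cost P G S x := by
  obtain ⟨k, hk, hlt⟩ := exists_mark h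
  exact lt_of_le_of_lt (Nat.sInf_le hk) hlt

lemma br_stable {x : W} (h : Owned P G S x) {k : ℕ} (hk : len P G S x ≤ k) :
    br P G S x k = br P G S x (len P G S x) := by
  induction k, hk using Nat.le_induction with
  | base => rfl
  | succ k _ ih => rw [br_succ, ih, nxt_mark (mark_len h)]

lemma owner_mark {x : W} (h : Owned P G S x) (hm : P.N ≤ sz S x) : owner P G S x = clf S x := by
  have : len P G S x = 0 := Nat.le_zero.1 (Nat.sInf_le (by simpa using hm))
  rw [owner, this, br_zero]

lemma owner_eq_clf_br {x : W} (h : Owned P G S x) {k : ℕ} (hk : len P G S x ≤ k) :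
    owner P G S x = clf S (br P G S x k) := by rw [owner, br_stable h hk]

lemma owner_of_mem {x y : W} (h : Owned P G S x) (hy : y ∈ clf S x) :
    owner P G S y = owner P G S x := by
  by_cases hm : sz S x < P.N
  · have hy' := (owned_iff_of_mem hy).2 h
    set k := max (len P G S x) (len P G S y) + 1
    rw [owner_eq_clf_br h (k := k) (by omega), owner_eq_clf_br hy' (k := k) (by omega), br, br,
      Function.iterate_succ_apply, Function.iterate_succ_apply, nxt_eq_of_mem hm h hy]
  · rw [owner_mark h (not_lt.1 hm),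
      owner_mark ((owned_iff_of_mem hy).2 h) (by rw [sz_eq_of_mem hy]; exact not_lt.1 hm),
      clf_eq_of_mem hy]

lemma owner_br {x : W} (h : Owned P G S x) (k : ℕ) :
    owner P G S (br P G S x k) = owner P G S x := by
  set K := max (len P G S x) (len P G S (br P G S x k))
  rw [owner_eq_clf_br h (k := K + k) (by omega),
    owner_eq_clf_br (owned_br h k) (k := K) (by omega), br, br, br, ← Function.iterate_add_apply]

lemma cost_br_lt {x : W} (h : Owned P G S x) {i j : ℕ} (hij : i < j) (hj : j ≤ len P G S x) :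
    cost P G S (br P G S x j) < cost P G S (br P G S x i) := by
  induction j, hij using Nat.le_induction with
  | base =>
    have := cost_nxt (owned_br h i) (lt_len (show i < len P G S x by omega))
    have := one_le_cost (owned_br h i)
    rw [br_succ]
    omega
  | succ j hij ih =>
    have := cost_nxt (owned_br h j) (lt_len (show j < len P G S x by omega))
    have := ih (by omega)
    rw [br_succ]
    omega

/-- The clusters along a branch are distinct. -/
lemma br_distinct {x : W} (h : Owned P G S x) {i j : ℕ} (hij : i < j) (hj : j ≤ len P G S x) :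
    clf S (br P G S x i) ≠ clf S (br P G S x j) := fun e => by
  have := cost_br_lt h hij hj
  rw [cost_eq_of_mem (show br P G S x j ∈ clf S (br P G S x i) from e ▸ self_mem_clf)] at this
  omega

lemma br_distinct_owner {x y : W} (hx : Owned P G S x) (hy : Owned P G S y)
    (hne : owner P G S x ≠ owner P G S y) (i j : ℕ) :
    clf S (br P G S x i) ≠ clf S (br P G S y j) := fun e => hne <| by
  rw [← owner_br hx i, ← owner_br hy j]
  exact (owner_of_mem (owned_br hx i) (e ▸ self_mem_clf)).symm

variable (P)

/-- The step out of the cluster is paid by its weight. -/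
def Cheap (G : SimpleGraph W) [G.LocallyFinite] (S : Finset (Sym2 W)) (x : W) : Prop :=
  wgt P S x * cost P G S (nxt P G S x) ≤ cost P G S x

open scoped Classical in
/-- The product of the weights paid along a branch. -/
noncomputable def cheapProd (G : SimpleGraph W) [G.LocallyFinite] (S : Finset (Sym2 W)) (x : W)
    (i : ℕ) : ℕ :=
  ∏ k ∈ range i, if Cheap P G S (br P G S x k) then wgt P S (br P G S x k) else 1

open scoped Classical in
/-- The number of junctions along a branch. -/
noncomputable def junctions (G : SimpleGraph W) [G.LocallyFinite] (S : Finset (Sym2 W)) (x : W)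
    (i : ℕ) : ℕ :=
  ∑ k ∈ range i, if Cheap P G S (br P G S x k) then 0 else 1

variable {P}

lemma branch_budget {x : W} (h : Owned P G S x) : ∀ {i : ℕ}, i ≤ len P G S x →
    cheapProd P G S x i * P.Q ^ junctions P G S x i * cost P G S (br P G S x i) ≤ cost P G S x
  | 0, _ => by simp [cheapProd, junctions]
  | i + 1, hi => by
    classical
    refine le_trans ?_ (branch_budget h (show i ≤ len P G S x by omega))
    set y := br P G S x i
    have hs := step_nxt (owned_br h i) (lt_len (show i < len P G S x by omega))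
    rw [cheapProd, junctions, prod_range_succ, sum_range_succ, br_succ, ← cheapProd, ← junctions]
    by_cases hc : Cheap P G S y
    · rw [if_pos hc, if_pos hc, add_zero]
      calc cheapProd P G S x i * wgt P S y * P.Q ^ junctions P G S x i * cost P G S (nxt P G S y)
          = cheapProd P G S x i * P.Q ^ junctions P G S x i *
              (wgt P S y * cost P G S (nxt P G S y)) := by ring
        _ ≤ _ := Nat.mul_le_mul_left _ hc
    · rw [if_neg hc, if_neg hc, mul_one, pow_succ]
      calc cheapProd P G S x i * (P.Q ^ junctions P G S x i * P.Q) * cost P G S (nxt P G S y)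
          = cheapProd P G S x i * P.Q ^ junctions P G S x i *
              (P.Q * cost P G S (nxt P G S y)) := by ring
        _ ≤ _ := Nat.mul_le_mul_left _ (hs.2.2.2.resolve_left hc)

lemma one_le_cheapProd (x : W) (i : ℕ) : 1 ≤ cheapProd P G S x i := by
  classical
  refine Nat.one_le_iff_ne_zero.2 (prod_ne_zero_iff.2 fun k _ => ?_)
  have := two_le_wgt P S (br P G S x k)
  split <;> omega

lemma branch_bound {x : W} (h : Owned P G S x) {B J i : ℕ} (hB : cost P G S x ≤ B)
    (hJ : B < P.Q ^ (J + 1)) (hi : i ≤ len P G S x) :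
    cheapProd P G S x i ≤ B ∧ junctions P G S x i ≤ J := by
  have hb := (branch_budget h hi).trans hB
  have h1 := one_le_cheapProd (P := P) (G := G) (S := S) x i
  have h2 := one_le_cost (owned_br h i)
  have h3 : 1 ≤ P.Q ^ junctions P G S x i := Nat.one_le_pow _ _ (by linarith [P.two_le_Q])
  refine ⟨le_trans ?_ hb, Nat.lt_succ_iff.1 ((Nat.pow_lt_pow_iff_right P.two_le_Q).1
    (lt_of_le_of_lt (le_trans ?_ hb) hJ))⟩
  · calc cheapProd P G S x i = cheapProd P G S x i * 1 * 1 := by ring
      _ ≤ _ := Nat.mul_le_mul (Nat.mul_le_mul_left _ h3) h2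
  · calc P.Q ^ junctions P G S x i = 1 * P.Q ^ junctions P G S x i * 1 := by ring
      _ ≤ _ := Nat.mul_le_mul (Nat.mul_le_mul_right _ h1) h2

/-- A branch stays near its root. -/
lemma br_mem_ball (hS : ↑S ⊆ G.edgeSet) {x : W} (h : Owned P G S x) :
    ∀ {k : ℕ}, k ≤ len P G S x → br P G S x k ∈ ball G x (k * (P.N + 1))
  | 0, _ => by simpa using self_mem_ball x 0
  | k + 1, hk => by
    have hm := lt_len (show k < len P G S x by omega)
    obtain ⟨v, hv, hvy⟩ := mem_nbs.1 (step_nxt (owned_br h k) hm).2.1
    rw [br_succ, Nat.succ_mul]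
    refine (ball_add x _ _ _).2 ⟨_, br_mem_ball hS h (by omega), ?_⟩
    exact ball_mono _ (show sz S (br P G S x k) + 1 ≤ P.N + 1 by omega)
      (ball_adj (clf_subset_ball hS _ hv) hvy)

variable (P)

/-- What has been absorbed: `A` times the weights of the clusters strictly between the two
representatives. -/
noncomputable def phi (G : SimpleGraph W) [G.LocallyFinite] (S : Finset (Sym2 W)) (A : ℕ)
    (u v : W) (i j : ℕ) : ℕ :=
  A * (∏ k ∈ range i, wgt P S (br P G S u k)) * ∏ k ∈ range j, wgt P S (br P G S v k)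

variable {P}

lemma phi_comm {A : ℕ} (u v : W) (i j : ℕ) : phi P G S A u v i j = phi P G S A v u j i := by
  simp only [phi]; ring

lemma absorb_step {A : ℕ} (hA : P.W₀ ≤ A) {u v : W} {i j : ℕ}
    (hinv : phi P G S A u v i j ≤ (A * cheapProd P G S u i * cheapProd P G S v j) ^
      6 ^ (junctions P G S u i + junctions P G S v j))
    (hsmall : sz S (br P G S u i) < phi P G S A u v i j ^ 4) :
    phi P G S A u v (i + 1) j ≤ (A * cheapProd P G S u (i + 1) * cheapProd P G S v j) ^
      6 ^ (junctions P G S u (i + 1) + junctions P G S v j) := by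
  classical
  set y := br P G S u i
  set Φ := phi P G S A u v i j
  have hΦ : A ≤ Φ := by
    calc A = A * 1 * 1 := by ring
      _ ≤ _ := Nat.mul_le_mul (Nat.mul_le_mul_left _
          (Nat.one_le_iff_ne_zero.2 (prod_ne_zero_iff.2 fun k _ => by
            have := two_le_wgt P S (br P G S u k); omega)))
          (Nat.one_le_iff_ne_zero.2 (prod_ne_zero_iff.2 fun k _ => by
            have := two_le_wgt P S (br P G S v k); omega))
  have e : phi P G S A u v (i + 1) j = Φ * wgt P S y := by
    simp only [phi, Φ, y, prod_range_succ]; ring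
  rw [e, cheapProd, junctions, prod_range_succ, sum_range_succ, ← cheapProd, ← junctions]
  by_cases hc : Cheap P G S y
  · rw [if_pos hc, if_pos hc, add_zero]
    set t := junctions P G S u i + junctions P G S v j
    calc Φ * wgt P S y ≤ (A * cheapProd P G S u i * cheapProd P G S v j) ^ 6 ^ t *
          wgt P S y ^ 6 ^ t := Nat.mul_le_mul hinv (Nat.le_self_pow (by positivity) _)
      _ = _ := by rw [← mul_pow]; ring
  · rw [if_neg hc, if_neg hc, mul_one]
    rw [show junctions P G S u i + 1 + junctions P G S v j =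
      junctions P G S u i + junctions P G S v j + 1 by ring, pow_succ 6, pow_mul]
    refine le_trans ?_ (Nat.pow_le_pow_left hinv 6)
    calc Φ * wgt P S y ≤ Φ * (Φ * Φ ^ 4) := by
          refine Nat.mul_le_mul_left _ ?_
          exact Nat.mul_le_mul (hA.trans hΦ) hsmall.le
      _ = _ := by ring

/-- Absorption. -/
theorem exists_absorb {A B J : ℕ} (hA : P.W₀ ≤ A) {u v : W} (hu : Owned P G S u)
    (hv : Owned P G S v) (hBu : cost P G S u ≤ B) (hBv : cost P G S v ≤ B)
    (hJ : B < P.Q ^ (J + 1)) (hN : ((A * B * B) ^ 6 ^ (2 * J)) ^ 4 ≤ P.N) :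
    ∃ i ≤ len P G S u, ∃ j ≤ len P G S v,
      phi P G S A u v i j ^ 4 ≤ sz S (br P G S u i) ∧
      phi P G S A u v i j ^ 4 ≤ sz S (br P G S v j) := by
  suffices key : ∀ r i j, i ≤ len P G S u → j ≤ len P G S v →
      (len P G S u - i) + (len P G S v - j) = r →
      phi P G S A u v i j ≤ (A * cheapProd P G S u i * cheapProd P G S v j) ^
        6 ^ (junctions P G S u i + junctions P G S v j) →
      ∃ i ≤ len P G S u, ∃ j ≤ len P G S v,
        phi P G S A u v i j ^ 4 ≤ sz S (br P G S u i) ∧
        phi P G S A u v i j ^ 4 ≤ sz S (br P G S v j) from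
    key _ 0 0 (Nat.zero_le _) (Nat.zero_le _) rfl (by simp [phi, cheapProd, junctions])
  intro r
  induction r using Nat.strong_induction_on with
  | _ r ih =>
    intro i j hi hj hr hinv
    obtain ⟨c1, j1⟩ := branch_bound hu hBu hJ hi
    obtain ⟨c2, j2⟩ := branch_bound hv hBv hJ hj
    have hcap : phi P G S A u v i j ^ 4 ≤ P.N := by
      refine le_trans (Nat.pow_le_pow_left (hinv.trans ((Nat.pow_le_pow_left
        (Nat.mul_le_mul (Nat.mul_le_mul_left _ c1) c2) _).trans ?_)) 4) hN
      refine Nat.pow_le_pow_right ?_ (Nat.pow_le_pow_right (by norm_num) (by omega))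
      have := one_le_cost hu
      have := P.two_le_W₀
      exact Nat.mul_pos (Nat.mul_pos (by omega) (by omega)) (by omega)
    rcases lt_or_ge (sz S (br P G S u i)) (phi P G S A u v i j ^ 4) with hs | hs
    · have hne : i ≠ len P G S u := fun e => by
        have := mark_len hu
        rw [← e] at this
        omega
      exact ih _ (by omega) (i + 1) j (by omega) hj rfl (absorb_step hA hinv hs)
    rcases lt_or_ge (sz S (br P G S v j)) (phi P G S A u v i j ^ 4) with hs' | hs'
    · have hne : j ≠ len P G S v := fun e => by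
        have := mark_len hv
        rw [← e] at this
        omega
      refine ih _ (by omega) i (j + 1) hi (by omega) rfl ?_
      rw [phi_comm] at hinv hs' ⊢
      rw [mul_right_comm A, add_comm (junctions P G S u i)] at hinv
      rw [mul_right_comm A, add_comm (junctions P G S u i)]
      exact absorb_step hA hinv hs'
    exact ⟨i, hi, j, hj, hs, hs'⟩

end Vale.Agent.P151.Slow
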