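import Vale.Agent.P151.Slow.Step

/-!
At a parameter with positive percolation probability: routes of one fixed budget reach clusters of
every size with probability close to one.
-/

open Finset

namespace Vale.Agent.P151.Slow

open Vale.Agent.P165 Vale.Agent.P151.Fin Vale.Agent.P151.Growth

variable {W : Type*} [DecidableEq W] {G : SimpleGraph W} [G.LocallyFinite]

omit [G.LocallyFinite] in
lemma bigP_antitone {p : ℝ} (h0 : 0 ≤ p) (h1 : p ≤ 1) (x : W) {m n : ℕ} (h : m ≤ n) :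
    bigP G p x n ≤ bigP G p x m :=
  supPr_mono h0 h1 fun _ ⟨Y, hY, hn⟩ => ⟨Y, hY, h.trans hn⟩

/-- The band vanishes uniformly as its lower end grows. -/
lemma exists_threshold (hQT : QuasiTransitive G) {p : ℝ} (h0 : 0 ≤ p) (h1 : p ≤ 1) {δ : ℝ}
    (hδ : 0 < δ) : ∃ T, ∀ T', T ≤ T' → ∀ y n, bigP G p y T' - bigP G p y n ≤ δ := by
  obtain ⟨F, hFfin, hF⟩ := hQT
  have hbdd : ∀ f, BddBelow (Set.range fun n => bigP G p f n) := fun f =>
    ⟨0, by rintro _ ⟨n, rfl⟩; exact supPr_nonneg h0 h1⟩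
  choose T hT using fun f => exists_lt_of_ciInf_lt
    (show (⨅ n, bigP G p f n) < (⨅ n, bigP G p f n) + δ by linarith)
  refine ⟨hFfin.toFinset.sup T, fun T' hT' y n => ?_⟩
  obtain ⟨φ, hφ⟩ := hF y
  rw [← bigP_iso h0 h1 φ y T', ← bigP_iso h0 h1 φ y n]
  have h2 := bigP_antitone (G := G) h0 h1 (φ y)
    ((Finset.le_sup (f := T) (hFfin.mem_toFinset.2 hφ)).trans hT')
  have h3 := ciInf_le (hbdd (φ y)) n
  linarith [hT (φ y)]

variable (G) in
/-- Everything met in `j` blocks of one hop is reached within the budget, is small and is near. -/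
def Tame (W₀ H T r j : ℕ) (z : W) (S : Finset (Sym2 W)) : Prop :=
  ∀ y ∈ rs G W₀ 1 S z j, y ∈ lnk G W₀ 0 S H z ∧ sz S y < T ∧ y ∈ ball G z r

/-- Nested thresholds. -/
lemma exists_tame (hQT : QuasiTransitive G) {p : ℝ} (h0 : 0 ≤ p) (h1 : p ≤ 1) {W₀ : ℕ}
    (hW : 2 ≤ W₀) {δ : ℝ} (hδ : 0 < δ) : ∀ j : ℕ, ∃ H r T : ℕ, 1 ≤ H ∧ 1 ≤ T ∧
      ∀ (n : ℕ) (z : W) (U : Finset (Sym2 W)), ↑U ⊆ G.edgeSet →
        inEdges G (ball G z (r + n)) ⊆ U →
        P165.pr p U (fun S => ¬ Route G W₀ H n z S ∧ ¬ Tame G W₀ H T r j z S) ≤ (j + 1) * δ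
  | 0 => by
    obtain ⟨T₀, hT₀⟩ := exists_threshold (G := G) hQT h0 h1 hδ
    refine ⟨1, T₀ + 1, T₀ + 1, le_rfl, by omega, fun n z U hU hsub => ?_⟩
    refine le_trans (P165.pr_mono h0 h1 (R := fun S => T₀ + 1 ≤ sz S z ∧ sz S z < n)
      fun S hS hb => ?_) ?_
    · obtain ⟨hr, ht⟩ := hb
      refine ⟨not_lt.1 fun hlt => ht fun y hy => ⟨clf_subset_lnk hy,
        by rwa [sz_eq_of_mem hy], ?_⟩, not_le.1 fun h => hr (route_iff.2 (Or.inl h))⟩
      exact ball_mono z hlt.le (clf_subset_ball (fun e he => hU (hS he)) z hy)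
    rcases le_total (T₀ + 1) n with hn | hn
    · rw [pr_band_eq h0 h1 hn le_rfl hU
        ((inEdges_ball_mono (ball_mono z (by omega : n ≤ T₀ + 1 + n))).trans hsub)]
      simpa using hT₀ (T₀ + 1) (by omega) z n
    · refine le_trans (P165.pr_mono h0 h1 (R := fun _ => False) fun S _ h => ?_) ?_
      · omega
      · simp [P165.pr, hδ.le]
  | j + 1 => by
    classical
    obtain ⟨H, r, T, hH, hT, hind⟩ := exists_tame hQT h0 h1 hW hδ j
    obtain ⟨D, -, hball⟩ := exists_ball_bound hQT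
    set M : ℝ := ((D : ℝ) + 1) ^ (r + 1)
    have hM : 0 < M := by positivity
    obtain ⟨T₁, hT₁⟩ := exists_threshold (G := G) hQT h0 h1 (div_pos hδ hM)
    set T' := T₁ + T
    set H' := H * (W₀ * T)
    have hWT : 1 ≤ W₀ * T := Nat.mul_pos (by omega) (by omega)
    refine ⟨H', r + 1 + T', T', Nat.mul_pos hH hWT, by omega, fun n z U hU hsub => ?_⟩
    set Ev : W → Finset (Sym2 W) → Prop := fun y S => T' ≤ sz S y ∧ sz S y < n
    refine le_trans (P165.pr_le_sum h0 h1 (insert none ((ball G z (r + 1)).image some))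
      (fun o S => o.elim (¬ Route G W₀ H n z S ∧ ¬ Tame G W₀ H T r j z S) (fun y => Ev y S))
      fun S hS hb => ?_) ?_
    · obtain ⟨hr, ht⟩ := hb
      have hSe : ↑S ⊆ G.edgeSet := fun e he => hU (hS he)
      have hHH : H ≤ H' := Nat.le_mul_of_pos_right H hWT
      have hr' : ¬ Route G W₀ H n z S := fun ⟨y, hy, hn⟩ => hr ⟨y, lnk_mono hHH z hy, hn⟩
      by_cases htame : Tame G W₀ H T r j z S
      swap
      · exact ⟨none, mem_insert_self _ _, hr', htame⟩
      obtain ⟨y, hy, hybad⟩ : ∃ y ∈ rs G W₀ 1 S z (j + 1),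
          ¬ (y ∈ lnk G W₀ 0 S H' z ∧ sz S y < T' ∧ y ∈ ball G z (r + 1 + T')) := by
        simpa [Tame] using ht
      rcases mem_union.1 hy with hy | hy
      · obtain ⟨h1, h2, h3⟩ := htame y hy
        exact absurd ⟨lnk_mono hHH z h1, by omega, ball_mono z (by omega) h3⟩ hybad
      obtain ⟨y', hy', hy⟩ := mem_biUnion.1 hy
      obtain ⟨v, hv, hvy⟩ := mem_nbs.1 hy'
      obtain ⟨g1, g2, g3⟩ := htame v hv
      have hyc : y ∈ clf S y' := by
        rcases mem_lnk.1 hy with h | ⟨h, -⟩ | ⟨h, -⟩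
        · exact h
        · omega
        · omega
      have hvw : W₀ * sz S v ≤ W₀ * T := Nat.mul_le_mul_left _ g2.le
      have hv2 : 2 ≤ W₀ * sz S v := le_trans (by omega) (Nat.mul_le_mul hW (sz_pos (S := S) (x := v)))
      have hlnk : y ∈ lnk G W₀ 0 S H' z := lnk_trans hH hWT g1 (mem_lnk.2 (Or.inr (Or.inl
        ⟨⟨hv2, hvw⟩, y', mem_nbs.2 ⟨v, self_mem_clf, hvy⟩, clf_subset_lnk hyc⟩)))
      have hy'b : y' ∈ ball G z (r + 1) := ball_adj g3 hvy
      refine ⟨some y', mem_insert_of_mem (mem_image_of_mem _ hy'b), ?_, ?_⟩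
      · by_contra hlt
        refine hybad ⟨hlnk, by rw [sz_eq_of_mem hyc]; omega, ?_⟩
        exact ball_mono z (by omega : r + 1 + sz S y' ≤ r + 1 + T')
          ((ball_add z _ _ y).2 ⟨y', hy'b, clf_subset_ball hSe y' hyc⟩)
      · exact not_le.1 fun hn => hr ⟨y, hlnk, by rwa [sz_eq_of_mem hyc]⟩
    rw [sum_insert (by simp), sum_image (fun _ _ _ _ => Option.some.inj)]
    push_cast
    rw [add_mul ((j : ℝ) + 1), one_mul]
    refine add_le_add (hind n z U hU ((inEdges_ball_mono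
      (ball_mono z (by omega : r + n ≤ r + 1 + T' + n))).trans hsub)) ?_
    have hsum : ∀ y ∈ ball G z (r + 1), P165.pr p U (Ev y) ≤ δ / M := by
      intro y hy
      rcases le_total T' n with hn | hn
      · refine le_of_eq_of_le (pr_band_eq h0 h1 hn le_rfl hU ?_) (hT₁ T' (by omega) y n)
        exact (inEdges_ball_mono fun v hv => ball_mono z (by omega : r + 1 + n ≤ r + 1 + T' + n)
          ((ball_add z (r + 1) n v).2 ⟨y, hy, hv⟩)).trans hsub
      · refine le_trans (P165.pr_mono h0 h1 (R := fun _ => False) fun S _ h => ?_) ?_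
        · simp only [Ev] at h; omega
        · simp only [P165.pr, filter_false, sum_empty]
          exact (div_pos hδ hM).le
    refine le_trans (sum_le_card_nsmul _ _ (δ / M) hsum) ?_
    rw [nsmul_eq_mul, mul_div_assoc', div_le_iff₀ hM, mul_comm δ]
    refine mul_le_mul_of_nonneg_right ?_ hδ.le
    exact le_of_le_of_eq (Nat.cast_le.2 (hball z (r + 1))) (by push_cast; rfl)

/-- Routes of one budget reach every size. -/
theorem exists_budget (hQT : QuasiTransitive G) {p : ℝ} (h0 : 0 ≤ p) (h1 : p ≤ 1) {D W₀ : ℕ}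
    (hD : ∀ x, (G.neighborFinset x).card ≤ D) (hWD : 2 * D ≤ W₀) (hW : 2 ≤ W₀) {θ : ℝ}
    (hθ : 0 < θ) (hb : ∀ x n, θ ≤ bigP G p x n) {εs : ℝ} (hεs : 0 < εs) :
    ∃ H, 2 ≤ H ∧ ∀ n, 2 ≤ n → ∀ z,
      P165.pr p (inEdges G (ball G z (2 * H + n))) (fun S => ¬ Route G W₀ H n z S) ≤ εs := by
  classical
  obtain ⟨j, hj⟩ := exists_pow_lt_of_lt_one (half_pos hεs) (show 1 - θ < 1 by linarith)
  obtain ⟨H, r, T, hH, -, htame⟩ := exists_tame (G := G) hQT h0 h1 hW
    (δ := εs / (2 * ((j : ℝ) + 1))) (by positivity) j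
  refine ⟨max H 2, le_max_right _ _, fun n hn z => ?_⟩
  set n'' := n * (1 + D * (n * (2 * 1 + 1))) ^ j + 1
  set R := 2 * max H 2 + n + (r + n) + (2 + n'')
  set U := inEdges G (ball G z R)
  have hU : ↑U ⊆ G.edgeSet := inEdges_edge _
  rw [← pr_route_eq (p := p) hW le_rfl hU (inEdges_ball_mono (ball_mono z (by omega)))]
  have hone : P165.pr p U (fun S => ¬ Route G W₀ 1 n'' z S) ≤ 1 - θ := by
    have e := P165.pr_compl p U (fun S => n'' ≤ sz S z)
    rw [pr_big_eq h0 h1 le_rfl hU (inEdges_ball_mono (ball_mono z (by omega)))] at e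
    refine le_trans (P165.pr_mono h0 h1 (R := fun S => ¬ n'' ≤ sz S z) fun S _ h hn' =>
      h (route_iff.2 (Or.inl hn'))) ?_
    linarith [hb z n'']
  have hfail := pr_fail_le (G := G) (h := 1) (z := z) (J := j) h0 h1 hD hWD hW hn hU hone
    (Nat.lt_succ_self _)
  have ht := htame n z U hU (inEdges_ball_mono (ball_mono z (by omega)))
  refine le_trans (P165.pr_le_sum h0 h1 ({true, false} : Finset Bool)
    (fun b S => if b then Fail G W₀ 1 n j z S else ¬ Route G W₀ H n z S ∧ ¬ Tame G W₀ H T r j z S)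
    fun S _ hr => ?_) ?_
  · have hr' : ¬ Route G W₀ H n z S := fun ⟨y, hy, hny⟩ =>
      hr ⟨y, lnk_mono (le_max_left _ _) z hy, hny⟩
    by_cases htm : Tame G W₀ H T r j z S
    · exact ⟨true, by simp, by
        simp only [if_true]
        exact fun y hy => not_le.1 fun hny => hr' ⟨y, (htm y hy).1, hny⟩⟩
    · exact ⟨false, by simp, by simp [hr', htm]⟩
  rw [sum_pair (by simp)]
  simp only [if_true, Bool.false_eq_true, if_false]
  refine (add_le_add (hfail.trans hj.le) ht).trans_eq ?_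
  field_simp
  ring

end Vale.Agent.P151.Slow
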