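import Vale.Agent.P151.Slow.Blocks
import Vale.Agent.P151.Slow.Band

/-!
The step: if routes to clusters of `2 ^ 2 ^ l` vertices exist with high probability, then clusters of
that size have `2 ^ 2 ^ (l + 1)` vertices up to an error of order `2 ^ (-l)`, and routes persist.
-/

open Finset

namespace Vale.Agent.P151.Slow

open Vale.Agent.P165 Vale.Agent.P151.Fin Vale.Agent.P151.Growth

variable {W : Type*} [DecidableEq W] {G : SimpleGraph W} [G.LocallyFinite]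

/-- The size at scale `l`. -/
def size (l : ℕ) : ℕ := 2 ^ 2 ^ l

lemma inEdges_ball_mono {x y : W} {ρ σ : ℕ} (h : ball G y σ ⊆ ball G x ρ) :
    inEdges G (ball G y σ) ⊆ inEdges G (ball G x ρ) := fun e => by
  induction e using Sym2.ind with
  | h a b =>
    intro he
    obtain ⟨h1, h2, h3⟩ := mem_inEdges.1 he
    exact mem_inEdges.2 ⟨h1, h h2, h h3⟩

/-- A route is decided by the edges of a ball. -/
lemma pr_route_eq {p : ℝ} {W₀ b n ρ : ℕ} (hW : 2 ≤ W₀) (hρ : 2 * b + n ≤ ρ) {z : W}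
    {U : Finset (Sym2 W)} (hU : ↑U ⊆ G.edgeSet) (hsub : inEdges G (ball G z ρ) ⊆ U) :
    P165.pr p U (fun S => ¬ Route G W₀ b n z S) =
      P165.pr p (inEdges G (ball G z ρ)) (fun S => ¬ Route G W₀ b n z S) := by
  rw [← P165.pr_marginal p hsub (fun S => ¬ Route G W₀ b n z S)]
  refine P165.pr_congr fun S hS => not_congr ?_
  have hSe : ↑S ⊆ G.edgeSet := fun e he => hU (hS he)
  have hSe' : ↑(S ∩ inEdges G (ball G z ρ)) ⊆ G.edgeSet := fun e he =>
    hSe (mem_inter.1 (Finset.mem_coe.1 he)).1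
  have hag := agree_inter (ρ := ρ) (x := z) hSe Finset.Subset.rfl
  exact ⟨route_local hW hSe hSe' hag hρ, route_local hW hSe' hSe hag.symm hρ⟩

/-- A route ends near its start. -/
lemma route_near {W₀ n : ℕ} (hW : 2 ≤ W₀) {S : Finset (Sym2 W)} (hS : ↑S ⊆ G.edgeSet) {b : ℕ}
    {x : W} (hr : Route G W₀ b n x S) :
    ∃ y ∈ ball G x (2 * b), y ∈ lnk G W₀ 0 S b x ∧ n ≤ sz S y := by
  induction b using Nat.strong_induction_on generalizing x with
  | _ b ih =>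
    rcases route_iff.1 hr with hn | ⟨hw, y, hy, hr⟩
    · exact ⟨x, self_mem_ball x _, self_mem_lnk, hn⟩
    obtain ⟨v, hv, hvy⟩ := mem_nbs.1 hy
    set w := W₀ * sz S x with hwdef
    have hpos := sz_pos (S := S) (x := x)
    have h2 : 2 * sz S x ≤ w := Nat.mul_le_mul_right _ hW
    have hq : 2 * (b / w) ≤ b :=
      (Nat.mul_le_mul_right _ hw.1).trans (Nat.mul_div_le b w)
    obtain ⟨u, hu, hul, hun⟩ := ih _ (Nat.div_lt_self (by omega) (by omega)) hr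
    exact ⟨u, ball_mono x (show sz S x + 1 + 2 * (b / w) ≤ 2 * b by omega)
      ((ball_add x _ _ u).2 ⟨y, ball_adj (clf_subset_ball hS x hv) hvy, hu⟩),
      mem_lnk.2 (Or.inr (Or.inl ⟨hw, y, hy, hul⟩)), hun⟩

/-- Routes persist up to the band. -/
lemma pr_route_step {p : ℝ} (h0 : 0 ≤ p) (h1 : p ≤ 1) {W₀ b n n' : ℕ} (hW : 2 ≤ W₀) (hn : n ≤ n')
    {z : W} {U : Finset (Sym2 W)} (hU : ↑U ⊆ G.edgeSet)
    (hsub : inEdges G (ball G z (2 * b + n')) ⊆ U) :
    P165.pr p U (fun S => ¬ Route G W₀ b n' z S) ≤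
      P165.pr p U (fun S => ¬ Route G W₀ b n z S) +
        ∑ y ∈ ball G z (2 * b), (bigP G p y n - bigP G p y n') := by
  classical
  refine le_trans (P165.pr_le_sum h0 h1 (insert none ((ball G z (2 * b)).image some))
    (fun o S => o.elim (¬ Route G W₀ b n z S) (fun y => n ≤ sz S y ∧ sz S y < n'))
    fun S hS hr => ?_) ?_
  · by_cases hr' : Route G W₀ b n z S
    · obtain ⟨y, hy, hyl, hyn⟩ := route_near hW (fun e he => hU (hS he)) hr'
      exact ⟨some y, mem_insert_of_mem (mem_image_of_mem _ hy), hyn,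
        not_le.1 fun h => hr ⟨y, hyl, h⟩⟩
    · exact ⟨none, mem_insert_self _ _, hr'⟩
  rw [sum_insert (by simp), sum_image (fun _ _ _ _ => Option.some.inj)]
  refine add_le_add le_rfl (le_of_eq (sum_congr rfl fun y hy => ?_))
  exact pr_band_eq h0 h1 hn le_rfl hU ((inEdges_ball_mono fun v hv =>
    (ball_add z (2 * b) n' v).2 ⟨y, hy, hv⟩).trans hsub)

/-- Polynomial against exponential. -/
lemma exists_poly_le (c : ℕ) : ∃ l₀ : ℕ, ∀ l, l₀ ≤ l → c * (l + 1) ^ 2 ≤ 2 ^ (l / 4) := by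
  have ht := tendsto_pow_const_div_const_pow_of_one_lt 2 (one_lt_two : (1 : ℝ) < 2)
  obtain ⟨m₀, hm⟩ := Filter.eventually_atTop.1
    (ht.eventually (gt_mem_nhds (show (0 : ℝ) < 1 / (64 * c + 1) by positivity)))
  refine ⟨4 * (m₀ + 1), fun l hl => ?_⟩
  set m := l / 4
  have h1 := hm m (by omega)
  rw [div_lt_div_iff₀ (by positivity) (by positivity), one_mul] at h1
  have h2 : (64 * c : ℝ) * (m : ℝ) ^ 2 ≤ (2 : ℝ) ^ m := by
    nlinarith [sq_nonneg (m : ℝ)]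
  have h3 : 64 * c * m ^ 2 ≤ 2 ^ m := by exact_mod_cast h2
  have h4 : l + 1 ≤ 8 * m := by omega
  calc c * (l + 1) ^ 2 ≤ c * (8 * m) ^ 2 := Nat.mul_le_mul_left _ (Nat.pow_le_pow_left h4 2)
    _ = 64 * c * m ^ 2 := by ring
    _ ≤ _ := h3

/-- The exponent of the failure probability asked for. -/
def expo (k : ℕ) : ℕ := 24 * (k + 3)

/-- The budget of `J` blocks is small on the exponential scale. -/
lemma budget_le {k h c l J : ℕ} (hh : 2 ≤ h) (hJl : J ≤ l) (hc : k + 3 + 6 * h ≤ c) :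
    (h ^ (J + 1) * h) ^ J < (h ^ (J + 1)) ^ (J + 1) ∧
      2 ^ ((k + 3) * l) * (h ^ (J + 1) * h) ^ J * (h ^ (J + 1) * h) ^ J ≤
        2 ^ (c * (l + 1) ^ 2) := by
  rw [← pow_succ h, ← pow_mul, ← pow_mul]
  refine ⟨Nat.pow_lt_pow_right (by omega) (by nlinarith), ?_⟩
  have hB2 : h ^ ((J + 1 + 1) * J) ≤ 2 ^ (h * ((J + 1 + 1) * J)) := by
    rw [pow_mul 2]
    exact Nat.pow_le_pow_left Nat.lt_two_pow_self.le _
  refine (Nat.mul_le_mul (Nat.mul_le_mul le_rfl hB2) hB2).trans ?_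
  rw [← pow_add, ← pow_add]
  refine Nat.pow_le_pow_right two_pos ?_
  have a1 : (k + 3) * l ≤ (k + 3) * (l + 1) ^ 2 := Nat.mul_le_mul_left _ (by nlinarith)
  have a2 : (J + 1 + 1) * J ≤ 3 * (l + 1) ^ 2 := by nlinarith
  have a3 := Nat.mul_le_mul_left h a2
  have a4 := Nat.mul_le_mul_right ((l + 1) ^ 2) hc
  nlinarith

/-- The absorption cap. -/
lemma cap_le {x c m t V : ℕ} (hx : x ≤ 2 ^ c) (h : c * t * 4 ≤ m) (hm : m ≤ V) :
    (x ^ t) ^ 4 ≤ 2 ^ V := by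
  refine le_trans (Nat.pow_le_pow_left (Nat.pow_le_pow_left hx t) 4) ?_
  rw [← pow_mul, ← pow_mul]
  exact Nat.pow_le_pow_right two_pos ((mul_assoc c t 4).symm.trans_le (h.trans hm))

/-- The blocks stay below the scale. -/
lemma blocks_lt {D h V L c J l : ℕ} (hc : 4 * D * h + 1 ≤ c) (hh : 1 ≤ h) (hV : 1 ≤ V)
    (hJl : J ≤ l) (h2 : 2 * ((c + 1) * (l + 1)) ≤ V) (hVV : V * V ≤ L) :
    2 ^ V * (1 + D * (2 ^ V * (2 * h + 1))) ^ J < 2 ^ L := by
  have hs : 1 + D * (2 ^ V * (2 * h + 1)) ≤ 2 ^ (V + c) := by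
    have e : 1 + D * (2 * h + 1) ≤ 2 ^ c :=
      le_trans (show 1 + D * (2 * h + 1) ≤ c by nlinarith) Nat.lt_two_pow_self.le
    have : 1 ≤ 2 ^ V := Nat.one_le_two_pow
    calc 1 + D * (2 ^ V * (2 * h + 1)) ≤ 2 ^ V * (1 + D * (2 * h + 1)) := by nlinarith
      _ ≤ 2 ^ V * 2 ^ c := Nat.mul_le_mul_left _ e
      _ = _ := (pow_add _ _ _).symm
  refine lt_of_le_of_lt (Nat.mul_le_mul_left _ (Nat.pow_le_pow_left hs J)) ?_
  rw [← pow_mul, ← pow_add]
  refine Nat.pow_lt_pow_right one_lt_two ?_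
  have : (V + c) * J ≤ V * (c + 1) * l := Nat.mul_le_mul (by nlinarith) hJl
  calc V + (V + c) * J ≤ V * ((c + 1) * (l + 1)) := by nlinarith
    _ < V * (2 * ((c + 1) * (l + 1))) :=
        Nat.mul_lt_mul_of_pos_left (by
          have : 0 < (c + 1) * (l + 1) := by positivity
          omega) hV
    _ ≤ V * V := Nat.mul_le_mul_left _ h2
    _ ≤ L := hVV

/-- The step. -/
theorem step_le (hG : G.Connected) (hQT : QuasiTransitive G) (hA : ¬ Nonamenable G) {k Cg : ℕ}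
    (hgrow : ∀ (z : W) (r : ℕ), 1 ≤ r → 2 ^ r ≤ (ball G z (Cg * r ^ k)).card)
    {pl : ℝ} (hpl : 0 < pl) {D W₀ h : ℕ} (hD : ∀ x, (G.neighborFinset x).card ≤ D)
    (hW2 : 2 ≤ W₀) (hWD : 2 * D ≤ W₀) (hh : 2 ≤ h) :
    ∃ (Cst : ℝ) (l₁ : ℕ), 0 ≤ Cst ∧ ∀ p : ℝ, pl ≤ p → p < 1 →
      4 * ((1 - p) / p) ≤ (W₀ : ℝ) ^ 2 → ∀ l, l₁ ≤ l →
      (∀ z, P165.pr p (inEdges G (ball G z (2 * h + size l)))
        (fun S => ¬ Route G W₀ h (size l) z S) ≤ (1 / 2) ^ expo k) →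
      ∀ x, bigP G p x (size l) - bigP G p x (size (l + 1)) ≤ Cst * (1 / 2) ^ l := by
  classical
  obtain ⟨C, hC, hband⟩ := band_le hG hQT hA hpl
  set c₁ := k + 3 + 6 * h + 4 * D * h + 4 with hc₁
  obtain ⟨l₁, hl₁⟩ := exists_poly_le (8 * c₁)
  set K : ℝ := (2 : ℝ) ^ (23 * (k + 3))
  refine ⟨C * (1 + ((Cg : ℝ) * 5 ^ k + 1) * (K + 1)), max l₁ W₀, by positivity,
    fun p hplp hp1 hW l hl hroute x => ?_⟩
  have hp : 0 < p := hpl.trans_le hplp
  have hll : l₁ ≤ l := le_of_max_le_left hl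
  have hlW : W₀ ≤ l := le_of_max_le_right hl
  set L := 2 ^ l with hLdef
  set V := 2 ^ (l / 2) with hVdef
  set J := l / 24 with hJdef
  set A := 2 ^ ((k + 3) * l) with hAdef
  set Q := h ^ (J + 1) with hQdef
  set B := (Q * h) ^ J with hBdef
  have hQ2 : 2 ≤ Q := hh.trans (Nat.le_self_pow (by omega) h)
  let P : Par := ⟨W₀, Q, 2 ^ V, hW2, hQ2, Nat.one_le_two_pow⟩
  have hpoly := hl₁ l hll
  have hl2 : 1 ≤ (l + 1) ^ 2 := Nat.one_le_pow _ _ (by omega)
  -- the exponents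
  have hQV : 2 ^ (l / 4) * 2 ^ (l / 4) ≤ V := by
    rw [← pow_add]; exact Nat.pow_le_pow_right two_pos (by omega)
  have hVV : V * V ≤ L := by
    rw [← pow_add]; exact Nat.pow_le_pow_right two_pos (by omega)
  have hV1 : 1 ≤ V := Nat.one_le_two_pow
  have hWA : W₀ ≤ A := le_trans (Nat.lt_two_pow_self.le.trans
    (Nat.pow_le_pow_right two_pos hlW)) (Nat.pow_le_pow_right two_pos
      (Nat.le_mul_of_pos_left l (by omega)))
  have hB1 : 1 ≤ B := Nat.one_le_pow _ _ (Nat.mul_pos (by omega) (by omega))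
  have hJl : J ≤ l := Nat.div_le_self _ _
  obtain ⟨hBQ, hABB⟩ := budget_le (k := k) (c := c₁) hh hJl (by omega)
  have hJ6 : 6 ^ (2 * J) ≤ 2 ^ (l / 4) := by
    calc 6 ^ (2 * J) ≤ (2 ^ 3) ^ (2 * J) := Nat.pow_le_pow_left (by norm_num) _
      _ = 2 ^ (6 * J) := by rw [← pow_mul]; congr 1; ring
      _ ≤ _ := Nat.pow_le_pow_right two_pos (by omega)
  have hcap : ((A * B * B) ^ 6 ^ (2 * J)) ^ 4 ≤ 2 ^ V := by
    refine cap_le hABB ?_ hQV
    calc c₁ * (l + 1) ^ 2 * 6 ^ (2 * J) * 4 = 4 * c₁ * (l + 1) ^ 2 * 6 ^ (2 * J) := by ring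
      _ ≤ 2 ^ (l / 4) * 2 ^ (l / 4) := Nat.mul_le_mul
          ((Nat.mul_le_mul_right _ (by omega)).trans hpoly) hJ6
  have hblocks : 2 ^ V * (1 + D * (2 ^ V * (2 * h + 1))) ^ J < size l := by
    refine blocks_lt (c := 4 * D * h + 1) le_rfl (by omega) hV1 hJl ?_ hVV
    refine le_trans ?_ ((Nat.le_mul_of_pos_right _ (Nat.two_pow_pos _)).trans hQV)
    refine le_trans ?_ hpoly
    calc 2 * ((4 * D * h + 1 + 1) * (l + 1)) ≤ 8 * (c₁ * (l + 1) ^ 2) :=
          Nat.mul_le_mul (by norm_num) (Nat.mul_le_mul (by omega) (Nat.le_self_pow two_ne_zero _))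
      _ = _ := (Nat.mul_assoc _ _ _).symm
  have hNn : 2 ^ V ≤ size l :=
    Nat.pow_le_pow_right two_pos (Nat.pow_le_pow_right two_pos (Nat.div_le_self _ _))
  have hnn' : size l ≤ size (l + 1) :=
    Nat.pow_le_pow_right two_pos (Nat.pow_le_pow_right two_pos (Nat.le_succ _))
  set ρ := Cg * (4 * L + 1) ^ k
  have hvol : ∀ y, 2 * size (l + 1) ^ 2 ≤ (ball G y ρ).card := fun y => by
    refine le_trans (le_of_eq ?_) (hgrow y (4 * L + 1) (by omega))
    rw [size, ← pow_mul, ← pow_succ']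
    congr 1
    rw [pow_succ]; ring
  set ε : ℝ := ((1 / 2 : ℝ) ^ expo k) ^ J
  have hreach : ∀ (z : W) (U : Finset (Sym2 W)), ↑U ⊆ G.edgeSet →
      inEdges G (ball G z (2 * h + size l)) ⊆ U →
      P165.pr p U (fun S => ¬ Reach G P.W₀ P.Q P.N B z S) ≤ ε := by
    intro z U hU hsub
    refine (P165.pr_mono hp.le hp1.le fun S _ hr =>
      fail_of_not_reach (J := J) hQ2 (by omega) hr).trans ?_
    refine pr_fail_le hp.le hp1.le hD hWD hW2 ?_ hU ?_ hblocks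
    · exact le_trans (by norm_num) (Nat.pow_le_pow_right two_pos hV1)
    · rw [pr_route_eq hW2 le_rfl hU hsub]; exact hroute z
  have hmain := hband p hplp hp1 P A B J (size (l + 1)) ρ (2 * h + size l) ε hWA hW hB1 hBQ hcap
    (hNn.trans hnn') (by positivity) hvol hreach x
  have hmono : bigP G p x (size l) ≤ bigP G p x P.N :=
    supPr_mono hp.le hp1.le fun S hS => by
      obtain ⟨Y, hY, hn⟩ := hS
      exact ⟨Y, hY, hNn.trans hn⟩
  refine (sub_le_sub_right hmono _).trans (hmain.trans ?_)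
  rw [mul_assoc C]
  refine mul_le_mul_of_nonneg_left ?_ hC
  set u : ℝ := (1 / 2 : ℝ) ^ l
  have hu : u = 1 / (2 : ℝ) ^ l := by rw [← one_div_pow]
  have hεu : ε ≤ K * u ^ (k + 3) := by
    have e : u ^ (k + 3) * K = (1 / 2 : ℝ) ^ ((k + 3) * l) * (2 : ℝ) ^ (23 * (k + 3)) := by
      rw [mul_comm (k + 3) l, pow_mul]
    rw [mul_comm K, e]
    have e2 : (1 / 2 : ℝ) ^ (expo k * J + 23 * (k + 3)) ≤ (1 / 2 : ℝ) ^ ((k + 3) * l) := by
      refine pow_le_pow_of_le_one (by norm_num) (by norm_num) ?_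
      have := Nat.mul_le_mul_left (k + 3) (show l ≤ 24 * J + 23 by omega)
      rw [expo]
      calc (k + 3) * l ≤ (k + 3) * (24 * J + 23) := this
        _ = _ := by ring
    have e3 := mul_le_mul_of_nonneg_right e2 (by positivity : (0 : ℝ) ≤ (2 : ℝ) ^ (23 * (k + 3)))
    refine le_trans (le_of_eq ?_) e3
    rw [pow_add, pow_mul, mul_assoc, ← mul_pow]
    norm_num
    rfl
  have hA2 : 1 / (A : ℝ) ^ 2 ≤ u ^ (k + 3) := by
    rw [hu, hAdef]
    push_cast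
    rw [← pow_mul, one_div_pow, ← pow_mul, mul_comm l]
    exact div_le_div_of_nonneg_left zero_le_one (by positivity)
      (pow_le_pow_right₀ one_le_two (by omega))
  have hρ : (ρ : ℝ) + 1 ≤ ((Cg : ℝ) * 5 ^ k + 1) * ((2 : ℝ) ^ l) ^ k := by
    have : ρ + 1 ≤ (Cg * 5 ^ k + 1) * L ^ k := by
      have h1 : (4 * L + 1) ^ k ≤ 5 ^ k * L ^ k := by
        rw [← mul_pow]
        exact Nat.pow_le_pow_left (by have : 1 ≤ L := Nat.one_le_two_pow; omega) k
      have h2 : 1 ≤ L ^ k := Nat.one_le_pow _ _ (by positivity)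
      have := Nat.mul_le_mul_left Cg h1
      calc ρ + 1 ≤ Cg * (5 ^ k * L ^ k) + L ^ k := add_le_add this h2
        _ = _ := by ring
    calc (ρ : ℝ) + 1 = ((ρ + 1 : ℕ) : ℝ) := by push_cast; ring
      _ ≤ (((Cg * 5 ^ k + 1) * L ^ k : ℕ) : ℝ) := Nat.cast_le.2 this
      _ = _ := by push_cast [hLdef]; ring
  have hu0 : 0 ≤ u := by positivity
  have hu1 : u ≤ 1 := pow_le_one₀ (by norm_num) (by norm_num)
  have hn' : 1 / (size (l + 1) : ℝ) ≤ u := by
    rw [hu, size]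
    push_cast
    exact div_le_div_of_nonneg_left zero_le_one (by positivity)
      (pow_le_pow_right₀ one_le_two ((Nat.lt_two_pow_self (n := l)).le.trans
        (Nat.pow_le_pow_right two_pos (Nat.le_succ _))))
  have huk : ((2 : ℝ) ^ l) ^ k * u ^ (k + 3) ≤ u := by
    have : (2 : ℝ) ^ l * u = 1 := by rw [hu, mul_one_div_cancel (by positivity)]
    rw [pow_add, ← mul_assoc, ← mul_pow, this, one_pow, one_mul]
    exact pow_le_of_le_one hu0 hu1 three_ne_zero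
  calc 1 / (size (l + 1) : ℝ) + ((ρ : ℝ) + 1) * (ε + 1 / (A : ℝ) ^ 2)
      ≤ u + ((Cg : ℝ) * 5 ^ k + 1) * ((2 : ℝ) ^ l) ^ k * ((K + 1) * u ^ (k + 3)) := by
        refine add_le_add hn' (mul_le_mul hρ ?_ (by positivity) (by positivity))
        linarith
    _ = u + ((Cg : ℝ) * 5 ^ k + 1) * (K + 1) * (((2 : ℝ) ^ l) ^ k * u ^ (k + 3)) := by ring
    _ ≤ u + ((Cg : ℝ) * 5 ^ k + 1) * (K + 1) * u :=
        add_le_add le_rfl (mul_le_mul_of_nonneg_left huk (by positivity))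
    _ = _ := by ring

/-- Climbing over all scales. -/
theorem climb {p Cst : ℝ} {W₀ h k l₁ l₀ D : ℕ} (h0 : 0 ≤ p) (h1 : p ≤ 1) (hW : 2 ≤ W₀)
    (hCst : 0 ≤ Cst) (hball : ∀ (x : W) n, (ball G x n).card ≤ (D + 1) ^ n)
    (hstep : ∀ l, l₁ ≤ l → (∀ z, P165.pr p (inEdges G (ball G z (2 * h + size l)))
        (fun S => ¬ Route G W₀ h (size l) z S) ≤ (1 / 2) ^ expo k) →
      ∀ x, bigP G p x (size l) - bigP G p x (size (l + 1)) ≤ Cst * (1 / 2) ^ l)
    (hl₀ : l₁ ≤ l₀)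
    (hinit : ∀ z, P165.pr p (inEdges G (ball G z (2 * h + size l₀)))
        (fun S => ¬ Route G W₀ h (size l₀) z S) ≤ (1 / 2) ^ expo k / 2)
    (hloss : ((D : ℝ) + 1) ^ (2 * h) * (2 * Cst * (1 / 2) ^ l₀) ≤ (1 / 2) ^ expo k / 2)
    (o : W) {l : ℕ} (hl : l₀ ≤ l) :
    bigP G p o (size l₀) - 2 * Cst * (1 / 2) ^ l₀ ≤ bigP G p o (size l) := by
  set M := ((D : ℝ) + 1) ^ (2 * h)
  have hM : 0 ≤ M := by positivity
  set S : ℕ → ℝ := fun l => 2 * Cst * ((1 / 2) ^ l₀ - (1 / 2) ^ l)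
  have hS : ∀ l, S l ≤ 2 * Cst * (1 / 2) ^ l₀ := fun l => by
    simp only [S]
    nlinarith [pow_nonneg (show (0 : ℝ) ≤ 1 / 2 by norm_num) l]
  have hSs : ∀ l, S (l + 1) = S l + Cst * (1 / 2) ^ l := fun l => by
    simp only [S, pow_succ]; ring
  suffices key : ∀ l, l₀ ≤ l →
      (∀ z, P165.pr p (inEdges G (ball G z (2 * h + size l)))
        (fun T => ¬ Route G W₀ h (size l) z T) ≤ (1 / 2) ^ expo k / 2 + M * S l) ∧
      bigP G p o (size l₀) - S l ≤ bigP G p o (size l) by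
    linarith [(key l hl).2, hS l]
  intro l hl
  induction l, hl using Nat.le_induction with
  | base => exact ⟨fun z => (hinit z).trans (by simp [S]), by simp [S]⟩
  | succ l hl ih =>
    obtain ⟨ih1, ih2⟩ := ih
    have hd := hstep l (hl₀.trans hl) fun z => (ih1 z).trans (by
      linarith [mul_le_mul_of_nonneg_left (hS l) hM])
    refine ⟨fun z => ?_, by linarith [hd o, hSs l]⟩
    have hle : size l ≤ size (l + 1) :=
      Nat.pow_le_pow_right two_pos (Nat.pow_le_pow_right two_pos l.le_succ)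
    refine (pr_route_step h0 h1 hW hle (inEdges_edge _) Finset.Subset.rfl).trans ?_
    rw [pr_route_eq hW le_rfl (inEdges_edge _) (inEdges_ball_mono (ball_mono z
      (show 2 * h + size l ≤ 2 * h + size (l + 1) by omega))), hSs, mul_add, ← add_assoc]
    refine add_le_add (ih1 z) ((sum_le_card_nsmul _ _ _ fun y _ => hd y).trans ?_)
    rw [nsmul_eq_mul]
    refine mul_le_mul_of_nonneg_right ?_ (by positivity)
    exact le_of_le_of_eq (Nat.cast_le.2 (hball z (2 * h))) (by push_cast; rfl)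

end Vale.Agent.P151.Slow
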